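import Vale.Agent.P166.Haar2.Fresh.Embed
import Vale.Agent.P166.Haar2.GG.Basic
import Vale.Agent.P157.Parisi.Cont.Gauss
import Vale.Agent.P168.Limit.GibbsLemmas

/-!
A rotation inside a block changes neither the overlaps nor the law of the Hamiltonian, so functions
of coordinates of that block may be averaged over such rotations.
-/

noncomputable section

open MeasureTheory ProbabilityTheory Matrix Filter
open scoped BigOperators

namespace Vale.Agent.P166.Haar2.Fresh

open Vale.Agent.P157 (gam dot)
open Vale.Agent.P157.Parisi (Cube)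
open Vale.Agent.P157.Parisi.Cont (gramOf forms map_forms_eq continuous_forms)
open Vale.Agent.P168.Limit (gw gav rav abs_rav_le)

variable {N G L M n : ℕ}

/-- The coordinates `e` of the rotated replicas. -/
def sub (e : Fin M → Fin N) (U : OG N) (σ : Fin n → Cube N) : Fin n → Fin M → ℝ :=
  fun a l => rot U (σ a) (e l)

lemma continuous_sub (e : Fin M → Fin N) (σ : Fin n → Cube N) :
    Continuous fun U : OG N => sub e U σ :=
  continuous_pi fun a => continuous_pi fun l =>
    (continuous_apply (e l)).comp (continuous_act (spin (σ a)))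

lemma rot_embed {e : Fin M → Fin N} (he : Function.Injective e) (V : OG M) (U : OG N)
    (σ : Cube N) : rot (embed he V * U) σ = embedMap e V (rot U σ) := by
  rw [rot, act_mul, act_embed]
  rfl

lemma sub_embed {e : Fin M → Fin N} (he : Function.Injective e) (V : OG M) (U : OG N)
    (σ : Fin n → Cube N) : sub e (embed he V * U) σ = fun a => act V (sub e U σ a) := by
  funext a l
  simp only [sub, rot_embed, embedMap_in he]
  rfl

variable (P : Sys N G)

/-- Every block contains all or none of the coordinates `e`. -/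
def Whole (e : Fin M → Fin N) : Prop := ∀ g, (∀ l, e l ∈ P.S g) ∨ ∀ l, e l ∉ P.S g

lemma ov_embed {e : Fin M → Fin N} (he : Function.Injective e) (hblk : Whole P e) (V : OG M)
    (U : OG N) (g : Fin G) (σ τ : Cube N) : P.ov (embed he V * U) g σ τ = P.ov U g σ τ := by
  classical
  simp only [Sys.ov, rot_embed]
  congr 1
  have hsum : ∀ F : Fin N → ℝ, ∑ i ∈ P.S g, F i =
      ∑ l, (if e l ∈ P.S g then F (e l) else 0) +
        ∑ i ∈ (Finset.univ.map ⟨e, he⟩)ᶜ, if i ∈ P.S g then F i else 0 := fun F => by
    rw [← sum_split he (fun i => if i ∈ P.S g then F i else 0), Finset.sum_ite_mem,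
      Finset.univ_inter]
  rw [hsum, hsum fun i => rot U σ i * rot U τ i]
  congr 1
  · rcases hblk g with h | h
    · simp only [h, if_true, embedMap_in he]
      exact act_dot V (rot U σ ∘ e) (rot U τ ∘ e)
    · simp [h]
  · refine Finset.sum_congr rfl fun i hi => ?_
    rw [embedMap_out e V _ (not_mem_range he hi), embedMap_out e V _ (not_mem_range he hi)]

lemma quad_embed {e : Fin M → Fin N} (he : Function.Injective e) {c : ℝ}
    (hlam : ∀ l, P.lam (e l) = c) (V : OG M) (U : OG N) (σ : Cube N) :
    ∑ i, P.lam i * rot (embed he V * U) σ i ^ 2 = ∑ i, P.lam i * rot U σ i ^ 2 := by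
  rw [sum_split he, sum_split he (fun i => P.lam i * rot U σ i ^ 2)]
  simp only [rot_embed, hlam, embedMap_in he, ← Finset.mul_sum, sq]
  congr 1
  · exact congrArg (c * ·) (act_dot V (rot U σ ∘ e) (rot U σ ∘ e))
  · exact Finset.sum_congr rfl fun i hi => by rw [embedMap_out e V _ (not_mem_range he hi)]

/-- The law of the perturbation depends only on the block overlaps. -/
lemma integral_pert_congr (hν : (N : ℝ) ≤ P.ν) (s : ℝ) (x : Fin L → ℝ) {U U' : OG N}
    (h : ∀ g σ τ, P.ov U' g σ τ = P.ov U g σ τ) {Ψ : (Cube N → ℝ) → ℝ} (hΨ : Measurable Ψ) :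
    ∫ J, Ψ (P.pert s x U' J) ∂gam (PIdx G N L) = ∫ J, Ψ (P.pert s x U J) ∂gam (PIdx G N L) := by
  set E := Fintype.equivFin (Cube N)
  set v : OG N → Fin (Fintype.card (Cube N)) → PIdx G N L → ℝ :=
    fun W a c => s * x c.1 * coef G c.1.val * P.feat W (E.symm a) c with hv
  have hg : gramOf (v U') = gramOf (v U) := by
    funext a b
    have e : ∀ W, gramOf (v W) a b = ∑ i : Fin L, (s * x i * coef G i.val) ^ 2 *
        ∏ g, P.ov W g (E.symm a) (E.symm b) ^ mexp G i.val g := fun W => by
      simp only [gramOf, dot, hv]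
      rw [Fintype.sum_sigma]
      refine Finset.sum_congr rfl fun i _ => ?_
      rw [← GG.sum_feat_mul P hν W (E.symm a) (E.symm b) i, Finset.mul_sum]
      exact Finset.sum_congr rfl fun w _ => by ring
    simp only [e, h]
  have hpert : ∀ W J, P.pert s x W J = fun σ => forms (v W) J (E σ) := fun W J => by
    funext σ
    simp [forms, dot, hv, Sys.pert]
  have hΨ' : Measurable fun y : Fin (Fintype.card (Cube N)) → ℝ => Ψ fun σ => y (E σ) :=
    hΨ.comp (measurable_pi_lambda _ fun σ => measurable_pi_apply _)
  simp only [hpert]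
  rw [← integral_map (φ := forms (v U')) (continuous_forms _).measurable.aemeasurable
      (f := fun y => Ψ fun σ => y (E σ)) hΨ'.aestronglyMeasurable,
    ← integral_map (φ := forms (v U)) (continuous_forms _).measurable.aemeasurable
      (f := fun y => Ψ fun σ => y (E σ)) hΨ'.aestronglyMeasurable, map_forms_eq _ _ hg]

/-- Functions of the coordinates of a block may be averaged over the rotations inside it. -/
theorem block_avg (hν : (N : ℝ) ≤ P.ν) {e : Fin M → Fin N} (he : Function.Injective e)
    (hblk : Whole P e) {c : ℝ} (hlam : ∀ l, P.lam (e l) = c) (s : ℝ) (x : Fin L → ℝ) (B : RBase N)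
    (Θ : (Fin n → Cube N) → (Fin n → Fin M → ℝ) → ℝ) (hΘ : ∀ σ, Continuous (Θ σ)) :
    ∫ z, rav n (P.ham s x B z) (fun σ => Θ σ (sub e z.1 σ)) ∂dzLaw G L B =
      ∫ z, rav n (P.ham s x B z)
        (fun σ => ∫ V, Θ σ (fun a => act V (sub e z.1 σ a)) ∂orthHaar M) ∂dzLaw G L B := by
  have hcσ : ∀ σ, Continuous fun q : OG M × OG N => Θ σ fun a => act q.1 (sub e q.2 σ a) :=
    fun σ => (hΘ σ).comp (continuous_pi fun a => continuous_act₂.comp
      (continuous_fst.prodMk (((continuous_apply a).comp (continuous_sub e σ)).comp continuous_snd)))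
  choose Bd hBd using fun σ => (isCompact_univ (X := OG M × OG N)).exists_bound_of_continuousOn
    (hcσ σ).continuousOn
  set C := ∑ σ, |Bd σ|
  have hb : ∀ (V : OG M) (U : OG N) σ, |Θ σ fun a => act V (sub e U σ a)| ≤ C := fun V U σ =>
    ((hBd σ (V, U) (Set.mem_univ _)).trans (le_abs_self _)).trans
      (Finset.single_le_sum (fun τ _ => abs_nonneg (Bd τ)) (Finset.mem_univ σ))
  set G2 : OG M × Dz G L B → ℝ := fun q =>
    rav n (P.ham s x B q.2) (fun σ => Θ σ fun a => act q.1 (sub e q.2.1 σ a)) with hG2
  have hm2 : Measurable G2 := Finset.measurable_sum _ fun σ _ =>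
    (Finset.measurable_prod _ fun l _ =>
      (GG.measurable_gw P s x B (σ l)).comp measurable_snd).mul
      ((hcσ σ).measurable.comp (measurable_fst.prodMk (measurable_fst.comp measurable_snd)))
  have hi2 : Integrable G2 ((orthHaar M).prod (dzLaw G L B)) :=
    Integrable.of_bound hm2.aestronglyMeasurable C
      (Eventually.of_forall fun q => abs_rav_le n _ _ fun σ => hb _ _ σ)
  have hrhs : ∀ z : Dz G L B, rav n (P.ham s x B z)
      (fun σ => ∫ V, Θ σ (fun a => act V (sub e z.1 σ a)) ∂orthHaar M) =
      ∫ V, G2 (V, z) ∂orthHaar M := fun z => by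
    simp only [hG2, rav]
    rw [integral_finsetSum _ fun σ _ => (integrable_cont (f := fun V : OG M =>
      Θ σ fun a => act V (sub e z.1 σ a))
      ((hcσ σ).comp (continuous_id.prodMk continuous_const))).const_mul _]
    exact Finset.sum_congr rfl fun σ _ => (integral_const_mul _ _).symm
  simp only [hrhs]
  rw [← integral_integral_swap hi2]
  have hV : ∀ V : OG M, ∫ z, G2 (V, z) ∂dzLaw G L B =
      ∫ z, rav n (P.ham s x B z) (fun σ => Θ σ (sub e z.1 σ)) ∂dzLaw G L B := by
    intro V
    have hb1 : ∀ (U : OG N) σ, |Θ σ (sub e U σ)| ≤ C := fun U σ => by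
      simpa [act_one] using hb 1 U σ
    have i1 : Integrable (fun z : Dz G L B =>
        rav n (P.ham s x B z) (fun σ => Θ σ (sub e z.1 σ))) (dzLaw G L B) :=
      GG.integrable_rav (fun σ => ((hΘ σ).comp (continuous_sub e σ)).measurable) hb1
    have i2 : Integrable (fun z : Dz G L B => G2 (V, z)) (dzLaw G L B) :=
      GG.integrable_rav (F := fun U σ => Θ σ fun a => act V (sub e U σ a))
        (fun σ => ((hcσ σ).comp (continuous_const.prodMk continuous_id)).measurable)
        fun U σ => hb V U σ
    unfold dzLaw at i1 i2 ⊢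
    rw [integral_prod _ i1, integral_prod _ i2]
    conv_rhs => rw [← integral_mul_left_eq_self (μ := orthHaar N) _ (embed he V)]
    refine integral_congr_ae (Eventually.of_forall fun U => ?_)
    have hfix : ∀ (U' : OG N), Integrable (fun y : (PIdx G N L → ℝ) × B.Ω =>
        rav n (P.ham s x B (U', y)) (fun σ => Θ σ (sub e U' σ))) ((gam (PIdx G N L)).prod B.law) :=
      fun U' => Integrable.of_bound ((GG.measurable_rav P s x B
        (F := fun z σ => Θ σ (sub e z.1 σ)) fun σ =>
          (((hΘ σ).comp (continuous_sub e σ)).measurable).comp measurable_fst).comp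
        (measurable_const.prodMk measurable_id)).aestronglyMeasurable C
        (Eventually.of_forall fun y => abs_rav_le n _ _ fun σ => hb1 U' σ)
    have hfix2 : Integrable (fun y : (PIdx G N L → ℝ) × B.Ω => G2 (V, (U, y)))
        ((gam (PIdx G N L)).prod B.law) :=
      Integrable.of_bound (hm2.comp (measurable_const.prodMk
        (measurable_const.prodMk measurable_id))).aestronglyMeasurable C
        (Eventually.of_forall fun y => abs_rav_le n _ _ fun σ => hb V U σ)
    beta_reduce
    rw [integral_prod_symm _ hfix2, integral_prod_symm _ (hfix _)]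
    refine integral_congr_ae (Eventually.of_forall fun ω => ?_)
    have hh : ∀ (U' : OG N) (J : PIdx G N L → ℝ), P.ham s x B (U', J, ω) = fun σ =>
        B.lw ω σ + (1 / 2 * ∑ i, P.lam i * rot U' σ i ^ 2 + P.pert s x U' J σ) := fun _ _ => rfl
    simp only [hG2, sub_embed, hh, quad_embed P he hlam]
    refine (integral_pert_congr P hν s x (U := U) (U' := embed he V * U)
      (fun g σ τ => ov_embed P he hblk V U g σ τ)
      (Ψ := fun h => rav n (fun σ => B.lw ω σ + (1 / 2 * ∑ i, P.lam i * rot U σ i ^ 2 + h σ))
        fun σ => Θ σ fun a => act V (sub e U σ a)) ?_).symm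
    refine Finset.measurable_sum _ fun σ _ => (Finset.measurable_prod _ fun l _ => ?_).mul_const _
    unfold gw
    fun_prop
  simp only [hV, integral_const, probReal_univ, one_smul]

end Vale.Agent.P166.Haar2.Fresh
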