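import Vale.Agent.P166.Haar2.Fresh.Tree

/-!
A weight on a cascade may be increased by a small constant: the mean logarithm moves little,
uniformly in the covariance paths.
-/

noncomputable section

open MeasureTheory ProbabilityTheory Filter Finset
open scoped BigOperators Topology

namespace Vale.Agent.P166.Haar2.Fresh

open Vale.Agent.P157 (gam dot)
open Vale.Agent.P157.Parisi.Cont (sum_path_steps integrable_bdd)
open Vale.Agent.P168 (genNested)
open Vale.Agent.P168.Cascade (Exps Bdd genNested_mem measurable_genNested abs_log_le)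
open Vale.Agent.P168.Upper (mp_curry integral_mp)

variable {r p : ℕ}

/-- The coordinates of the fields of one leaf. -/
abbrev OneIdx (r p : ℕ) :=
  (Fin p ⊕ Fin 1) ⊕ ((Fin r × (Fin p ⊕ Fin 1)) ⊕ (Fin p ⊕ Fin 1))

/-- One field as a vector. -/
def oneVec (P : Fin p ⊕ Fin 1 → El r) (d : Fin p ⊕ Fin 1) : OneIdx r p → ℝ :=
  Sum.elim (fun d' => if d' = d then Real.sqrt ((P d).v 0) else 0)
    (Sum.elim (fun qd => if qd.2 = d then
        Real.sqrt ((P d).v qd.1.succ - (P d).v qd.1.castSucc) else 0)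
      fun d' => if d' = d then Real.sqrt ((P d).s - (P d).v (Fin.last r)) else 0)

lemma dot_oneVec {P : Fin p ⊕ Fin 1 → El r} {d : Fin p ⊕ Fin 1} (hP : (P d).IsCov) :
    dot (oneVec P d) (oneVec P d) = (P d).s := by
  have h := sum_path_steps (P d).v (Fin.last r)
  simp only [Fin.val_last, Fin.is_lt, if_true] at h
  simp only [dot, oneVec, Fintype.sum_sum_type, Sum.elim_inl, Sum.elim_inr, Fintype.sum_prod_type,
    ite_mul, zero_mul, sum_ite_eq', mem_univ, if_true, Real.mul_self_sqrt hP.nonneg,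
    Real.mul_self_sqrt (sub_nonneg.2 hP.le)]
  have e : ∀ q : Fin r, Real.sqrt ((P d).v q.succ - (P d).v q.castSucc) *
      Real.sqrt ((P d).v q.succ - (P d).v q.castSucc) = (P d).v q.succ - (P d).v q.castSucc :=
    fun q => Real.mul_self_sqrt (sub_nonneg.2 (hP.mono (Fin.castSucc_le_succ q)))
  simp only [e]
  linarith

/-- The law of the coordinates of one leaf. -/
def oneLaw (r p : ℕ) : Measure ((Fin p ⊕ Fin 1 → ℝ) ×
    (Fin r → Fin p ⊕ Fin 1 → ℝ) × (Fin p ⊕ Fin 1 → ℝ)) :=
  (gam (Fin p ⊕ Fin 1)).prod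
    ((Measure.pi fun _ : Fin r => gam (Fin p ⊕ Fin 1)).prod (gam (Fin p ⊕ Fin 1)))

instance : IsProbabilityMeasure (oneLaw r p) := by
  unfold oneLaw; infer_instance

/-- The fourth moment of one field. -/
lemma casField_four {P : Fin p ⊕ Fin 1 → El r} {d : Fin p ⊕ Fin 1} (hP : (P d).IsCov) :
    Integrable (fun z => casField P z.1 z.2.1 z.2.2 d ^ 4) (oneLaw r p) ∧
      ∫ z, casField P z.1 z.2.1 z.2.2 d ^ 4 ∂oneLaw r p = (P d).s ^ 2 * mom4 := by
  let T : (OneIdx r p → ℝ) → (Fin p ⊕ Fin 1 → ℝ) ×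
      (Fin r → Fin p ⊕ Fin 1 → ℝ) × (Fin p ⊕ Fin 1 → ℝ) := fun g =>
    ((fun d' => g (Sum.inl d')), (fun q d' => g (Sum.inr (Sum.inl (q, d')))),
      fun d' => g (Sum.inr (Sum.inr d')))
  have hT : MeasurePreserving T (gam (OneIdx r p)) (oneLaw r p) := by
    have h1 := ((MeasurePreserving.id (gam (Fin p ⊕ Fin 1))).prod
      (measurePreserving_sumPiEquivProdPi fun _ : (Fin r × (Fin p ⊕ Fin 1)) ⊕ (Fin p ⊕ Fin 1) =>
        gaussianReal 0 1)).comp
      (measurePreserving_sumPiEquivProdPi fun _ : OneIdx r p => gaussianReal 0 1)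
    exact ((MeasurePreserving.id (gam (Fin p ⊕ Fin 1))).prod
      ((mp_curry (ι := Fin r) (κ := Fin p ⊕ Fin 1) (gaussianReal 0 1)).prod
        (MeasurePreserving.id (gam (Fin p ⊕ Fin 1))))).comp h1
  have e : ∀ g, casField P (T g).1 (T g).2.1 (T g).2.2 d ^ 4 = dot g (oneVec P d) ^ 4 := fun g => by
    congr 1
    simp only [casField, T, dot, oneVec, Fintype.sum_sum_type, Sum.elim_inl, Sum.elim_inr,
      Fintype.sum_prod_type, mul_ite, mul_zero, sum_ite_eq', mem_univ, if_true]
    rw [mul_comm _ (g (Sum.inl d)), mul_comm _ (g (Sum.inr (Sum.inr d))), add_assoc]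
    congr 2
    exact Finset.sum_congr rfl fun q _ => mul_comm _ _
  have hm : Measurable fun z : (Fin p ⊕ Fin 1 → ℝ) ×
      (Fin r → Fin p ⊕ Fin 1 → ℝ) × (Fin p ⊕ Fin 1 → ℝ) => casField P z.1 z.2.1 z.2.2 d ^ 4 :=
    (((continuous_apply d).comp (continuous_leafF P)).pow 4).measurable
  obtain ⟨h1, h2⟩ := integral_dot_pow_four (oneVec P d)
  refine ⟨(hT.integrable_comp hm.aestronglyMeasurable).1
    (h1.congr (Eventually.of_forall fun g => (e g).symm)), ?_⟩
  rw [← integral_mp hT hm, integral_congr_ae (Eventually.of_forall e), h2, dot_oneVec hP]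

/-- The exponent of the lower bound of a weight. -/
def yC (C : ℝ) (z : Fin p ⊕ Fin 1 → ℝ) : ℝ := C * (1 + ∑ d, z d ^ 2)

/-- What bounds its part above `R`. -/
def qC (C R : ℝ) (z : Fin p ⊕ Fin 1 → ℝ) : ℝ :=
  C ^ 2 * (2 + 2 * (p + 1) * ∑ d, z d ^ 4) / R

lemma yC_sub_le {C R : ℝ} (hC : 0 ≤ C) (hR : 0 < R) (z : Fin p ⊕ Fin 1 → ℝ) :
    max (yC C z - R) 0 ≤ qC C R z := by
  have h0 : 0 ≤ qC C R z := by
    have : 0 ≤ ∑ d, z d ^ 4 := Finset.sum_nonneg fun d _ => by positivity
    unfold qC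
    positivity
  refine max_le ?_ h0
  have hy : yC C z ^ 2 ≤ C ^ 2 * (2 + 2 * (p + 1) * ∑ d, z d ^ 4) := by
    unfold yC
    rw [mul_pow]
    refine mul_le_mul_of_nonneg_left ?_ (sq_nonneg C)
    have h := sq_sum_le_card_mul_sum_sq (s := (Finset.univ : Finset (Fin p ⊕ Fin 1)))
      (f := fun d => z d ^ 2)
    simp only [Finset.card_univ, Fintype.card_sum, Fintype.card_fin, Nat.cast_add, Nat.cast_one,
      ← pow_mul] at h
    nlinarith [sq_nonneg (1 - ∑ d, z d ^ 2)]
  rw [qC, le_div_iff₀ hR]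
  nlinarith [sq_nonneg (yC C z - R)]

lemma integrable_casField_four (P : Fin p ⊕ Fin 1 → El r) (g₀ : Fin p ⊕ Fin 1 → ℝ)
    (η : Fin r → Fin p ⊕ Fin 1 → ℝ) (d : Fin p ⊕ Fin 1) :
    Integrable (fun e => casField P g₀ η e d ^ 4) (gam (Fin p ⊕ Fin 1)) := by
  set a := Real.sqrt ((P d).v 0) * g₀ d +
    ∑ q : Fin r, Real.sqrt ((P d).v q.succ - (P d).v q.castSucc) * η q d
  set b := Real.sqrt ((P d).s - (P d).v (Fin.last r))
  have h1 := ((IsGaussian.memLp_id (gaussianReal 0 1) (p := 4) (by norm_num)).integrable_norm_pow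
    (p := 4) (by norm_num))
  have h2 := (measurePreserving_eval (fun _ : Fin p ⊕ Fin 1 => gaussianReal 0 1)
    d).integrable_comp_of_integrable h1
  refine ((h2.const_mul (8 * b ^ 4)).add (integrable_const (8 * a ^ 4))).mono'
    (((continuous_apply d).comp ((continuous_leafF P).comp (continuous_const.prodMk
      (continuous_const.prodMk continuous_id)))).pow 4).measurable.aestronglyMeasurable
    (Eventually.of_forall fun e => ?_)
  show ‖(a + b * e d) ^ 4‖ ≤ 8 * b ^ 4 * ‖id (e d)‖ ^ 4 + 8 * a ^ 4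
  rw [Real.norm_eq_abs, Real.norm_eq_abs, id, Even.pow_abs (show Even 4 by decide),
    abs_of_nonneg (show (0 : ℝ) ≤ (a + b * e d) ^ 4 by positivity)]
  have h3 : (a + b * e d) ^ 2 ≤ 2 * (a ^ 2 + (b * e d) ^ 2) := by
    nlinarith [sq_nonneg (a - b * e d)]
  have h4 := pow_le_pow_left₀ (sq_nonneg _) h3 2
  have h5 : (a ^ 2 + (b * e d) ^ 2) ^ 2 ≤ 2 * (a ^ 4 + (b * e d) ^ 4) := by
    nlinarith [sq_nonneg (a ^ 2 - (b * e d) ^ 2)]
  calc (a + b * e d) ^ 4 = ((a + b * e d) ^ 2) ^ 2 := by ring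
    _ ≤ (2 * (a ^ 2 + (b * e d) ^ 2)) ^ 2 := h4
    _ = 4 * (a ^ 2 + (b * e d) ^ 2) ^ 2 := by ring
    _ ≤ 4 * (2 * (a ^ 4 + (b * e d) ^ 4)) := by linarith
    _ = 8 * b ^ 4 * e d ^ 4 + 8 * a ^ 4 := by ring

/-- Adding a small constant to a weight on a cascade. -/
theorem cascade_tail {m : Fin r → ℝ} (hm : Exps m) (P E : El r) (hP : P.IsCov) (hE : E.IsCov)
    {S : ℝ} (hPs : P.s ≤ S) (hEs : E.s ≤ S) {X : (Fin p ⊕ Fin 1 → ℝ) → ℝ} (hXc : Continuous X)
    {C : ℝ} (hC : 0 < C) (hX : ∀ z, Real.exp (-yC C z) ≤ X z ∧ X z ≤ C) {ε R : ℝ} (hε : 0 < ε)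
    (hR : 0 < R) :
    |cascV m (Sum.elim (fun _ : Fin p => P) fun _ : Fin 1 => E) (fun z => X z + ε) -
        cascV m (Sum.elim (fun _ : Fin p => P) fun _ : Fin 1 => E) X| ≤
      ε * Real.exp R + C ^ 2 * (2 + 2 * (p + 1) * ((p + 1) * (S ^ 2 * mom4))) / R := by
  set Pr : Fin p ⊕ Fin 1 → El r := Sum.elim (fun _ => P) fun _ => E with hPr
  set ν := gam (Fin p ⊕ Fin 1) with hν
  set μη := Measure.pi fun _ : Fin r => ν with hμη
  have hPd : ∀ d, (Pr d).IsCov ∧ (Pr d).s ≤ S := by
    rintro (j | j)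
    exacts [⟨hP, hPs⟩, ⟨hE, hEs⟩]
  have hXb : ∀ z, |X z| ≤ C := fun z => by
    rw [abs_of_pos ((Real.exp_pos _).trans_le (hX z).1)]; exact (hX z).2
  have hF : Continuous fun z : (Fin p ⊕ Fin 1 → ℝ) ×
      (Fin r → Fin p ⊕ Fin 1 → ℝ) × (Fin p ⊕ Fin 1 → ℝ) =>
      qC C R (casField Pr z.1 z.2.1 z.2.2) :=
    (show Continuous (qC (p := p) C R) by unfold qC; fun_prop).comp (continuous_leafF Pr)
  have hi4 : Integrable (fun z => ∑ d, casField Pr z.1 z.2.1 z.2.2 d ^ 4) (oneLaw r p) :=
    integrable_finsetSum _ fun d _ => (casField_four (hPd d).1).1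
  have hq : Integrable (fun z => qC C R (casField Pr z.1 z.2.1 z.2.2)) (oneLaw r p) :=
    (((integrable_const _).add (hi4.const_mul _)).const_mul _).div_const _
  have hqint : ∫ z, qC C R (casField Pr z.1 z.2.1 z.2.2) ∂oneLaw r p ≤
      C ^ 2 * (2 + 2 * (p + 1) * ((p + 1) * (S ^ 2 * mom4))) / R := by
    unfold qC
    rw [integral_div, integral_const_mul, integral_add (integrable_const _) (hi4.const_mul _),
      integral_const_mul, integral_finsetSum _ fun d _ => (casField_four (hPd d).1).1]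
    simp only [integral_const, probReal_univ, one_smul]
    refine div_le_div_of_nonneg_right (mul_le_mul_of_nonneg_left (add_le_add_right
      (mul_le_mul_of_nonneg_left ?_ (by positivity)) _) (sq_nonneg C)) hR.le
    refine (Finset.sum_le_sum fun d _ => (casField_four (hPd d).1).2.trans_le
      (mul_le_mul_of_nonneg_right (pow_le_pow_left₀ ((hPd d).1.nonneg.trans
        (((hPd d).1.mono (Fin.zero_le _)).trans (hPd d).1.le)) (hPd d).2 2) mom4_nonneg)).trans_eq ?_
    simp
  set f : (Fin p ⊕ Fin 1 → ℝ) → (Fin r → Fin p ⊕ Fin 1 → ℝ) → ℝ := fun g₀ η =>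
    ∫ e, qC C R (casField Pr g₀ η e) ∂ν with hf
  set fb : (Fin p ⊕ Fin 1 → ℝ) → ℝ := fun g₀ => ∫ η, f g₀ η ∂μη with hfb
  have hfb2 : Integrable fb ν ∧ ∫ g₀, fb g₀ ∂ν = ∫ z, qC C R (casField Pr z.1 z.2.1 z.2.2)
      ∂oneLaw r p := by
    have h1 : ∀ᵐ g₀ ∂ν, fb g₀ = ∫ w, qC C R (casField Pr g₀ w.1 w.2) ∂μη.prod ν := by
      filter_upwards [hq.prod_right_ae] with g₀ hg
      exact (integral_prod _ hg).symm
    exact ⟨hq.integral_prod_left.congr (h1.mono fun g₀ h => h.symm),
      (integral_congr_ae h1).trans (integral_prod _ hq).symm⟩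
  have hXe : ∀ g₀ η, innerAvg Pr (fun z => X z + ε) g₀ η = innerAvg Pr X g₀ η + ε := fun g₀ η => by
    have hi : Integrable (fun e => X (casField Pr g₀ η e)) ν :=
      integrable_bdd (hXc.comp ((continuous_leafF Pr).comp
        (continuous_const.prodMk (continuous_const.prodMk continuous_id)))).measurable
        (fun e => hXb _)
    simp only [innerAvg]
    rw [integral_add hi (integrable_const _)]
    simp [hν]
  have hYm : Measurable fun z : (Fin p ⊕ Fin 1 → ℝ) × (Fin r → Fin p ⊕ Fin 1 → ℝ) =>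
      innerAvg Pr X z.1 z.2 := (continuous_innerAvg Pr hXc hXb).measurable
  have key : ∀ᵐ g₀ ∂ν, 0 ≤ Real.log (genNested ν m (innerAvg Pr (fun z => X z + ε) g₀)) -
        Real.log (genNested ν m (innerAvg Pr X g₀)) ∧
      Real.log (genNested ν m (innerAvg Pr (fun z => X z + ε) g₀)) -
        Real.log (genNested ν m (innerAvg Pr X g₀)) ≤ ε * Real.exp R + fb g₀ := by
    filter_upwards [hq.prod_right_ae] with g₀ hg
    have hi2 : ∀ η, ∀ d, Integrable (fun e => casField Pr g₀ η e d ^ 2) ν := fun η d => by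
      refine ((integrable_casField_four Pr g₀ η d).add (integrable_const 1)).mono'
        (((continuous_apply d).comp ((continuous_leafF Pr).comp (continuous_const.prodMk
          (continuous_const.prodMk continuous_id)))).pow 2).measurable.aestronglyMeasurable
        (Eventually.of_forall fun e => ?_)
      rw [Real.norm_eq_abs, abs_of_nonneg (sq_nonneg _)]
      show _ ≤ casField Pr g₀ η e d ^ 4 + 1
      nlinarith [sq_nonneg (casField Pr g₀ η e d ^ 2 - 1)]
    have hiy : ∀ η, Integrable (fun e => yC C (casField Pr g₀ η e)) ν := fun η =>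
      ((integrable_const _).add (integrable_finsetSum _ fun d _ => hi2 η d)).const_mul _
    have hiq : ∀ η, Integrable (fun e => qC C R (casField Pr g₀ η e)) ν := fun η =>
      (((integrable_const _).add ((integrable_finsetSum _ fun d _ =>
        integrable_casField_four Pr g₀ η d).const_mul _)).const_mul _).div_const _
    have h := log_genNested_add_le ν hm hε hR.le (Y := innerAvg Pr X g₀)
      (y := fun η => ∫ e, yC C (casField Pr g₀ η e) ∂ν) (f := f g₀) (C := C)
      (hYm.comp (measurable_const.prodMk measurable_id)) (fun η => ⟨?_, ?_⟩) ?_ ?_ (fun η => ?_)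
    · simp only [funext (hXe g₀)]
      exact h.2
    · set a := ∫ e, yC C (casField Pr g₀ η e) ∂ν with ha
      have hi : Integrable (fun e => X (casField Pr g₀ η e)) ν :=
        integrable_bdd (hXc.comp ((continuous_leafF Pr).comp
          (continuous_const.prodMk (continuous_const.prodMk continuous_id)))).measurable
          (fun e => hXb _)
      have h1 := integral_mono
        ((integrable_const (Real.exp (-a) * (1 + a))).add ((hiy η).const_mul (-Real.exp (-a)))) hi
        fun e => (exp_tangent a _).trans (hX (casField Pr g₀ η e)).1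
      simp only [Pi.add_apply] at h1
      rw [integral_add (integrable_const _) ((hiy η).const_mul _)] at h1
      simp only [integral_const, probReal_univ, one_smul] at h1
      rw [integral_const_mul, ← ha] at h1
      calc Real.exp (-a) = Real.exp (-a) * (1 + a) + -Real.exp (-a) * a := by ring
        _ ≤ _ := h1
    · exact (le_abs_self _).trans (abs_innerAvg_le Pr hXb g₀ η)
    · exact (hF.comp (continuous_const.prodMk continuous_id)).measurable.stronglyMeasurable
        |>.integral_prod_right'.measurable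
    · exact hg.integral_prod_left
    · refine max_le ?_ (integral_nonneg fun e => (le_max_right _ _).trans (yC_sub_le hC.le hR _))
      calc (∫ e, yC C (casField Pr g₀ η e) ∂ν) - R
          = ∫ e, yC C (casField Pr g₀ η e) - R ∂ν := by
            rw [integral_sub (hiy η) (integrable_const _)]; simp [hν]
        _ ≤ _ := integral_mono ((hiy η).sub (integrable_const _)) (hiq η)
            fun e => (le_max_left _ _).trans (yC_sub_le hC.le hR _)
  have hB : ∀ g₀, Bdd (max (C + ε) ε⁻¹) (innerAvg Pr (fun z => X z + ε) g₀) := fun g₀ => by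
    have h0 : 0 < max (C + ε) ε⁻¹ := lt_max_of_lt_right (inv_pos.2 hε)
    refine ⟨h0, ?_, fun η => ?_⟩
    · simp only [funext (hXe g₀)]
      exact (hYm.comp (measurable_const.prodMk measurable_id)).add measurable_const
    · rw [hXe]
      have h1 : 0 ≤ innerAvg Pr X g₀ η :=
        integral_nonneg fun e => (Real.exp_pos _).le.trans (hX _).1
      exact ⟨((inv_le_comm₀ h0 hε).2 (le_max_right _ _)).trans (by linarith),
        le_trans (add_le_add_left ((le_abs_self _).trans (abs_innerAvg_le Pr hXb g₀ η)) _)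
          (le_max_left _ _)⟩
  have hYem : Measurable fun z : (Fin p ⊕ Fin 1 → ℝ) × (Fin r → Fin p ⊕ Fin 1 → ℝ) =>
      innerAvg Pr (fun z => X z + ε) z.1 z.2 := by
    simp only [hXe]
    exact hYm.add measurable_const
  have hiG : Integrable (fun g₀ => Real.log (genNested ν m (innerAvg Pr (fun z => X z + ε) g₀))) ν :=
    integrable_bdd (measurable_genNested ν m (Y := innerAvg Pr fun z => X z + ε) hYem).log
      fun g₀ => abs_log_le (hB g₀).pos (genNested_mem ν (hB g₀).pos hm (hB g₀).meas (hB g₀).mem).1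
        (genNested_mem ν (hB g₀).pos hm (hB g₀).meas (hB g₀).mem).2
  have hiG0 : Integrable (fun g₀ => Real.log (genNested ν m (innerAvg Pr X g₀))) ν := by
    refine ((hiG.abs.add ((integrable_const (ε * Real.exp R)).add hfb2.1.abs))).mono'
      (measurable_genNested ν m (Y := innerAvg Pr X) hYm).log.aestronglyMeasurable
      (key.mono fun g₀ h => ?_)
    rw [Real.norm_eq_abs, abs_le]
    simp only [Pi.add_apply]
    constructor <;> linarith [h.1, h.2, le_abs_self (fb g₀), abs_nonneg (fb g₀),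
      abs_le.1 (le_refl |Real.log (genNested ν m (innerAvg Pr (fun z => X z + ε) g₀))|),
      mul_nonneg hε.le (Real.exp_pos R).le]
  show |(∫ g₀, Real.log (genNested ν m (innerAvg Pr (fun z => X z + ε) g₀)) ∂ν) -
    ∫ g₀, Real.log (genNested ν m (innerAvg Pr X g₀)) ∂ν| ≤ _
  rw [← integral_sub hiG hiG0, abs_of_nonneg (integral_nonneg_of_ae (key.mono fun g h => h.1))]
  refine (integral_mono_ae (hiG.sub hiG0) ((integrable_const _).add hfb2.1)
    (key.mono fun g h => h.2)).trans ?_
  simp only [Pi.add_apply]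
  rw [integral_add (integrable_const _) hfb2.1, hfb2.2]
  simp only [integral_const, probReal_univ, one_smul]
  exact add_le_add_right hqint _

end Vale.Agent.P166.Haar2.Fresh
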