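import Vale.Agent.P166.Haar
import Vale.Agent.P157.Potential

/-!
Rotations of a few coordinates, and frames: rotations putting given vectors on given coordinates.
-/

noncomputable section

open MeasureTheory Matrix Filter
open scoped BigOperators InnerProductSpace

namespace Vale.Agent.P166.Haar2.Fresh

open Vale.Agent.P157 (dot)

variable {N M p : ℕ}

/-- A rotation of the coordinates in the range of `e`. -/
def embedMap (e : Fin p → Fin N) (O : OG p) (x : Fin N → ℝ) : Fin N → ℝ :=
  Function.extend e (act O (x ∘ e)) x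

lemma embedMap_in {e : Fin p → Fin N} (he : Function.Injective e) (O : OG p) (x : Fin N → ℝ)
    (l : Fin p) : embedMap e O x (e l) = act O (x ∘ e) l := by
  rw [embedMap, he.extend_apply]

lemma embedMap_out (e : Fin p → Fin N) (O : OG p) (x : Fin N → ℝ) {i : Fin N}
    (hi : ∀ l, e l ≠ i) : embedMap e O x i = x i :=
  Function.extend_apply' _ _ _ fun ⟨l, hl⟩ => hi l hl

lemma sum_split {e : Fin p → Fin N} (he : Function.Injective e) (F : Fin N → ℝ) :
    ∑ i, F i = ∑ l, F (e l) + ∑ i ∈ (Finset.univ.map ⟨e, he⟩)ᶜ, F i := by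
  rw [← Finset.sum_add_sum_compl (Finset.univ.map ⟨e, he⟩), Finset.sum_map]
  rfl

lemma not_mem_range {e : Fin p → Fin N} (he : Function.Injective e) {i : Fin N}
    (hi : i ∈ (Finset.univ.map ⟨e, he⟩)ᶜ) : ∀ l, e l ≠ i := fun l h =>
  Finset.mem_compl.1 hi (Finset.mem_map.2 ⟨l, Finset.mem_univ l, h⟩)

lemma embedMap_dot {e : Fin p → Fin N} (he : Function.Injective e) (O : OG p) (x y : Fin N → ℝ) :
    embedMap e O x ⬝ᵥ embedMap e O y = x ⬝ᵥ y := by
  simp only [dotProduct]
  rw [sum_split he, sum_split he (fun i => x i * y i)]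
  congr 1
  · simp only [embedMap_in he]
    exact act_dot O (x ∘ e) (y ∘ e)
  · exact Finset.sum_congr rfl fun i hi => by
      rw [embedMap_out e O x (not_mem_range he hi), embedMap_out e O y (not_mem_range he hi)]

/-- The matrix of `embedMap`. -/
def embedMat (e : Fin p → Fin N) (O : OG p) : Matrix (Fin N) (Fin N) ℝ :=
  Matrix.of fun i k => embedMap e O (ev k) i

lemma embedMat_mulVec {e : Fin p → Fin N} (he : Function.Injective e) (O : OG p) (x : Fin N → ℝ) :
    embedMat e O *ᵥ x = embedMap e O x := by
  funext i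
  simp only [Matrix.mulVec, dotProduct, embedMat, Matrix.of_apply]
  by_cases hi : ∃ l, e l = i
  · obtain ⟨l, rfl⟩ := hi
    simp only [embedMap_in he, act, Matrix.mulVec, dotProduct, Function.comp_apply, ev,
      Finset.sum_mul]
    rw [Finset.sum_comm]
    refine Finset.sum_congr rfl fun l' _ => ?_
    simp [Pi.single_apply]
  · rw [embedMap_out e O x fun l h => hi ⟨l, h⟩,
      Finset.sum_congr rfl fun k _ => by rw [embedMap_out e O (ev k) fun l h => hi ⟨l, h⟩]]
    simp [ev, Pi.single_apply]

/-- A rotation of the coordinates in the range of `e`, as a rotation of all coordinates. -/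
def embed {e : Fin p → Fin N} (he : Function.Injective e) (O : OG p) : OG N :=
  ⟨embedMat e O, (Matrix.mem_orthogonalGroup_iff' (Fin N) ℝ).2 (by
    ext j k
    have h := embedMap_dot he O (ev j) (ev k)
    rw [ev_dot] at h
    rw [Matrix.mul_apply]
    refine (show _ = embedMap e O (ev j) ⬝ᵥ embedMap e O (ev k) from rfl).trans ?_
    rw [h]
    simp [ev, Matrix.one_apply, Pi.single_apply])⟩

lemma act_embed {e : Fin p → Fin N} (he : Function.Injective e) (O : OG p) (x : Fin N → ℝ) :
    act (embed he O) x = embedMap e O x :=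
  embedMat_mulVec he O x

lemma continuous_embed {e : Fin p → Fin N} (he : Function.Injective e) :
    Continuous fun O : OG p => embed he O := by
  refine Continuous.subtype_mk (continuous_pi fun i => continuous_pi fun k => ?_) _
  show Continuous fun O => embedMap e O (ev k) i
  by_cases hi : ∃ l, e l = i
  · obtain ⟨l, rfl⟩ := hi
    simp only [embedMap_in he]
    exact (continuous_apply l).comp (continuous_act _)
  · simp only [fun O => embedMap_out e O (ev k) (fun l h => hi ⟨l, h⟩)]
    exact continuous_const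

lemma continuous_act₂ : Continuous fun z : OG N × (Fin N → ℝ) => act z.1 z.2 :=
  Continuous.matrix_mulVec (continuous_subtype_val.comp continuous_fst) continuous_snd

lemma dot_act (U : OG N) (x y : Fin N → ℝ) : dot (act U x) (act U y) = dot x y :=
  act_dot U x y

/-- Some rotation puts given vectors on as many given coordinates. -/
lemma exists_rot_support (g : Fin p → Fin M → ℝ) {c : Fin p → Fin M} (hc : Function.Injective c) :
    ∃ Q : OG M, ∀ j i, (∀ l, c l ≠ i) → act Q (g j) i = 0 := by
  classical
  let x : Fin p → EuclideanSpace ℝ (Fin M) := fun j => WithLp.toLp 2 (g j)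
  let S := Submodule.span ℝ (Set.range x)
  have hd : Module.finrank ℝ S ≤ p := (finrank_range_le_card x).trans (by simp)
  let sb := stdOrthonormalBasis ℝ S
  let e' : Fin (Module.finrank ℝ S) → Fin M := fun l => c (Fin.castLE hd l)
  have he' : Function.Injective e' := hc.comp (Fin.castLE_injective hd)
  let v : Fin M → EuclideanSpace ℝ (Fin M) :=
    Function.extend e' (fun l => (sb l : EuclideanSpace ℝ (Fin M))) 0
  have hv : Orthonormal ℝ ((Set.range e').domRestrict v) := by
    rw [orthonormal_iff_ite]
    rintro ⟨_, l, rfl⟩ ⟨_, l', rfl⟩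
    simp only [Set.domRestrict_apply, v, he'.extend_apply, ← Submodule.coe_inner]
    refine (orthonormal_iff_ite.1 sb.orthonormal l l').trans (if_congr ?_ rfl rfl)
    rw [Subtype.ext_iff]
    exact he'.eq_iff.symm
  obtain ⟨b, hb⟩ := Orthonormal.exists_orthonormalBasis_extension_of_card_eq
    (finrank_euclideanSpace (𝕜 := ℝ) (ι := Fin M)) hv
  have hQ : (Matrix.of fun i k => b i k) ∈ Matrix.orthogonalGroup (Fin M) ℝ := by
    rw [Matrix.mem_orthogonalGroup_iff]
    ext i i'
    have h := orthonormal_iff_ite.1 b.orthonormal i' i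
    rw [PiLp.inner_apply] at h
    rw [Matrix.mul_apply, Matrix.one_apply]
    simp only [Matrix.of_apply, Matrix.transpose_apply]
    simpa [eq_comm] using h
  refine ⟨⟨_, hQ⟩, fun j i hi => ?_⟩
  have e1 : act (⟨_, hQ⟩ : OG M) (g j) i = ⟪b i, x j⟫_ℝ := by
    simp [act, Matrix.mulVec, dotProduct, PiLp.inner_apply, x, mul_comm]
  rw [e1]
  have h2 : x j = ∑ l, sb.repr ⟨x j, Submodule.subset_span ⟨j, rfl⟩⟩ l • b (e' l) := by
    have h := congrArg Subtype.val (sb.sum_repr ⟨x j, Submodule.subset_span ⟨j, rfl⟩⟩)
    rw [Submodule.coe_sum] at h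
    refine h.symm.trans (Finset.sum_congr rfl fun l _ => ?_)
    rw [Submodule.coe_smul, hb (e' l) ⟨l, rfl⟩]
    simp only [v, he'.extend_apply]
  rw [h2, inner_sum]
  refine Finset.sum_eq_zero fun l _ => ?_
  rw [real_inner_smul_right, b.inner_eq_zero fun h => hi _ h.symm, mul_zero]

end Vale.Agent.P166.Haar2.Fresh
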