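import Vale.Agent.P166.Haar2.Fresh.Embed
import Vale.Agent.P157.Parisi.Cont.Gauss
import Vale.Agent.P157.RSPattern
import Vale.Agent.P157.Laws
import Vale.Agent.P168.Upper.Product

/-!
A few rows of a Haar rotation against a Gaussian matrix.
-/

noncomputable section

open MeasureTheory ProbabilityTheory Matrix Filter
open scoped BigOperators Topology

namespace Vale.Agent.P166.Haar2.Fresh

open Vale.Agent.P157 (gam dot gaussC admissible_gaussian gaussC_nonneg integral_dot_sq)
open Vale.Agent.P157.Parisi.Cont (gramOf forms expVal expVal_congr continuous_forms)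
open Vale.Agent.P168.Upper (mp_precomp integral_mp)

variable {M p n : ℕ}

/-- The coordinates `c` of rotated vectors. -/
def fr (V : OG M) (c : Fin p → Fin M) (v : Fin n → Fin M → ℝ) : Fin p → Fin n → ℝ :=
  fun j a => act V (v a) (c j)

/-- A matrix acting on the coordinates. -/
def lin (T : Matrix (Fin p) (Fin p) ℝ) (x : Fin p → Fin n → ℝ) : Fin p → Fin n → ℝ :=
  fun j a => ∑ l, T j l * x l a

lemma lin_one (x : Fin p → Fin n → ℝ) : lin 1 x = x := by
  funext j a
  simp [lin, Matrix.one_apply]

lemma lin_lin (T T' : Matrix (Fin p) (Fin p) ℝ) (x : Fin p → Fin n → ℝ) :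
    lin T (lin T' x) = lin (T * T') x := by
  funext j a
  simp only [lin, Matrix.mul_apply, Finset.mul_sum, Finset.sum_mul]
  rw [Finset.sum_comm]
  exact Finset.sum_congr rfl fun l _ => Finset.sum_congr rfl fun l' _ => by ring

lemma continuous_lin : Continuous fun z : Matrix (Fin p) (Fin p) ℝ × (Fin p → Fin n → ℝ) =>
    lin z.1 z.2 := by
  unfold lin
  exact continuous_pi fun j => continuous_pi fun a => continuous_finsetSum _ fun l _ =>
    (continuous_fst.matrix_elem j l).mul
      ((continuous_apply a).comp ((continuous_apply l).comp continuous_snd))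

lemma continuous_fr (c : Fin p → Fin M) (v : Fin n → Fin M → ℝ) :
    Continuous fun V : OG M => fr V c v :=
  continuous_pi fun j => continuous_pi fun a => (continuous_apply (c j)).comp (continuous_act _)

lemma abs_integral_le_one {α : Type*} [MeasurableSpace α] {μ : Measure α}
    [IsProbabilityMeasure μ] {f : α → ℝ} (h : ∀ a, |f a| ≤ 1) : |∫ a, f a ∂μ| ≤ 1 := by
  rw [← Real.norm_eq_abs]
  exact (norm_integral_le_of_norm_le_const (C := 1) (Eventually.of_forall h)).trans_eq
    (by rw [probReal_univ, mul_one])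

/-- A rotated coordinate has second moment `|v|² / M`. -/
lemma integral_act_sq (v : Fin M → ℝ) (i : Fin M) :
    ∫ V, act V v i ^ 2 ∂orthHaar M = dot v v / M := by
  have hc : ∀ j, Continuous fun V : OG M => act V v j ^ 2 := fun j =>
    ((continuous_apply j).comp (continuous_act v)).pow 2
  have hsym : ∀ j, ∫ V, act V v j ^ 2 ∂orthHaar M = ∫ V, act V v i ^ 2 ∂orthHaar M := by
    intro j
    rcases eq_or_ne i j with rfl | hij
    · rfl
    rw [← integral_mul_left_eq_self (μ := orthHaar M) (fun V : OG M => act V v i ^ 2)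
      (refl (ev i - ev j))]
    refine integral_congr_ae (Eventually.of_forall fun V => ?_)
    simp only [act_mul, act_refl_swap hij, Equiv.swap_apply_left]
  have hsum : ∫ V, ∑ j, act V v j ^ 2 ∂orthHaar M = dot v v := by
    have e : ∀ V : OG M, ∑ j, act V v j ^ 2 = dot v v := fun V => by
      rw [← dot_act V v v]
      simp [dot, sq]
    simp only [e, integral_const, probReal_univ, one_smul]
  rw [integral_finsetSum _ fun j _ => integrable_cont (hc j)] at hsum
  simp only [hsym, Finset.sum_const, Finset.card_univ, Fintype.card_fin, nsmul_eq_mul] at hsum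
  have hM : (0 : ℝ) < M := by exact_mod_cast i.pos
  rw [eq_div_iff hM.ne', ← hsum, mul_comm]

/-- Entries of the Gram matrix of Gaussian rows concentrate. -/
lemma integral_gram_dev (j j' : Fin p) :
    Integrable (fun g : Fin p → Fin M → ℝ =>
        |dot (g j) (g j') - if j = j' then (M : ℝ) else 0|)
        (Measure.pi fun _ => gam (Fin M)) ∧
      ∫ g : Fin p → Fin M → ℝ, |dot (g j) (g j') - if j = j' then (M : ℝ) else 0|
        ∂(Measure.pi fun _ => gam (Fin M)) ≤ (gaussC + 1) * Real.sqrt M := by
  rcases Nat.eq_zero_or_pos M with rfl | hM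
  · constructor <;> simp [dot]
  have hs0 : 0 < Real.sqrt M := Real.sqrt_pos.2 (by exact_mod_cast hM)
  by_cases h : j = j'
  · subst h
    have hmp : MeasurePreserving (fun g : Fin p → Fin M → ℝ => g j)
        (Measure.pi fun _ => gam (Fin M)) (gam (Fin M)) := measurePreserving_eval _ j
    have e : ∀ g : Fin p → Fin M → ℝ, |dot (g j) (g j) - (M : ℝ)| =
        |(∑ i, g j i ^ 2) - (M : ℝ)| := fun g => by simp [dot, sq]
    simp only [↓reduceIte, e]
    refine ⟨hmp.integrable_comp_of_integrable (admissible_gaussian.sq_integrable M), ?_⟩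
    rw [integral_mp hmp (g := fun y : Fin M → ℝ => |(∑ i, y i ^ 2) - (M : ℝ)|) (by fun_prop)]
    exact (admissible_gaussian.moment M).trans
      (mul_le_mul_of_nonneg_right (by linarith) (Real.sqrt_nonneg _))
  · simp only [if_neg h, sub_zero]
    have hinj : Function.Injective ![j, j'] := fun a b hab => by
      fin_cases a <;> fin_cases b <;> simp_all [eq_comm]
    have hmp : MeasurePreserving (fun g : Fin p → Fin M → ℝ => (g j, g j'))
        (Measure.pi fun _ => gam (Fin M)) ((gam (Fin M)).prod (gam (Fin M))) :=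
      (measurePreserving_piFinTwo fun _ : Fin 2 => gam (Fin M)).comp
        (mp_precomp (gam (Fin M)) hinj)
    have hdm : Measurable fun z : (Fin M → ℝ) × (Fin M → ℝ) => dot z.1 z.2 := by
      unfold dot; fun_prop
    have hsq : ∀ i : Fin M, Integrable (fun y : Fin M → ℝ => y i ^ 2) (gam (Fin M)) := fun i =>
      ((IsGaussian.memLp_two_id (μ := gaussianReal 0 1)).comp_measurePreserving
        (measurePreserving_eval (fun _ : Fin M => gaussianReal 0 1) i)).integrable_sq
    have hS : Integrable (fun y : Fin M → ℝ => ∑ i, y i ^ 2) (gam (Fin M)) :=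
      integrable_finsetSum _ fun i _ => hsq i
    have h2 : Integrable (fun z : (Fin M → ℝ) × (Fin M → ℝ) => dot z.1 z.2 ^ 2)
        ((gam (Fin M)).prod (gam (Fin M))) := by
      refine (hS.mul_prod hS).mono' (hdm.pow_const 2).aestronglyMeasurable
        (Eventually.of_forall fun z => ?_)
      rw [Real.norm_eq_abs, abs_of_nonneg (sq_nonneg _)]
      exact Finset.sum_mul_sq_le_sq_mul_sq _ _ _
    have hint : ∫ z, dot z.1 z.2 ^ 2 ∂(gam (Fin M)).prod (gam (Fin M)) = M := by
      rw [integral_prod_symm _ h2]
      simp only [integral_dot_sq]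
      rw [integral_finsetSum _ fun i _ => hsq i]
      have : ∀ i : Fin M, ∫ y : Fin M → ℝ, y i ^ 2 ∂gam (Fin M) = 1 := fun i =>
        (integral_comp_eval (μ := fun _ : Fin M => gaussianReal 0 1) (i := i)
          (f := fun x : ℝ => x ^ 2) (by fun_prop)).trans Vale.Agent.P157.integral_sq_gam1
      simp [this]
    have hb : ∀ a : ℝ, |a| ≤ a ^ 2 / (2 * Real.sqrt M) + Real.sqrt M / 2 := fun a => by
      have := sq_nonneg (|a| - Real.sqrt M)
      rw [← sq_abs a, div_add_div _ _ (by positivity) two_ne_zero, le_div_iff₀ (by positivity)]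
      nlinarith
    have h1 : Integrable (fun z : (Fin M → ℝ) × (Fin M → ℝ) => |dot z.1 z.2|)
        ((gam (Fin M)).prod (gam (Fin M))) :=
      ((h2.div_const _).add (integrable_const _)).mono' hdm.abs.aestronglyMeasurable
        (Eventually.of_forall fun z => by
          rw [Real.norm_eq_abs, abs_abs]; exact hb _)
    refine ⟨hmp.integrable_comp_of_integrable h1, ?_⟩
    rw [integral_mp hmp (g := fun z => |dot z.1 z.2|) hdm.abs]
    refine (integral_mono h1 ((h2.div_const _).add (integrable_const _)) fun z => hb _).trans ?_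
    simp only [Pi.add_apply]
    rw [integral_add (h2.div_const _) (integrable_const _), integral_div, hint]
    simp only [integral_const, probReal_univ, one_smul]
    have hms : Real.sqrt M * Real.sqrt M = M := Real.mul_self_sqrt (Nat.cast_nonneg M)
    have : (M : ℝ) / (2 * Real.sqrt M) = Real.sqrt M / 2 := by
      field_simp
      linarith
    rw [this]
    nlinarith [gaussC_nonneg, Real.sqrt_nonneg (M : ℝ)]

/-- Matrices with nearly orthonormal rows are nearly rotations. -/
lemma exists_near_orth {W : Set (Matrix (Fin p) (Fin p) ℝ)} (hW : W ∈ 𝓝 1) :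
    ∃ δ > 0, ∀ T : Matrix (Fin p) (Fin p) ℝ,
      (∀ j j', |(T * Tᵀ) j j' - (1 : Matrix (Fin p) (Fin p) ℝ) j j'| ≤ δ) →
      ∃ O : OG p, T * (O : Matrix (Fin p) (Fin p) ℝ) ∈ W := by
  obtain ⟨U, hUW, hU, hU1⟩ := mem_nhds_iff.1 hW
  set box : Set (Matrix (Fin p) (Fin p) ℝ) :=
    Set.univ.pi fun _ => Set.univ.pi fun _ => Set.Icc (-2 : ℝ) 2 with hbox
  have hK : IsCompact box := isCompact_univ_pi fun _ => isCompact_univ_pi fun _ => isCompact_Icc
  set S := box ∩ ⋂ O : OG p, {T | T * (O : Matrix (Fin p) (Fin p) ℝ) ∉ U} with hSdef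
  have hS : IsCompact S := hK.inter_right (isClosed_iInter fun O =>
    (hU.preimage (continuous_id.matrix_mul continuous_const)).isClosed_compl)
  set φ : Matrix (Fin p) (Fin p) ℝ → ℝ := fun T =>
    ∑ j, ∑ j', |(T * Tᵀ) j j' - (1 : Matrix (Fin p) (Fin p) ℝ) j j'|
  have hφ : Continuous φ := continuous_finsetSum _ fun j _ => continuous_finsetSum _ fun j' _ =>
    ((((continuous_id.matrix_mul continuous_id.matrix_transpose).matrix_elem j j').sub
      continuous_const).abs)
  have hpos : ∀ T ∈ S, 0 < φ T := by
    intro T hT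
    refine lt_of_le_of_ne (Finset.sum_nonneg fun _ _ => Finset.sum_nonneg fun _ _ => abs_nonneg _)
      fun h => ?_
    have h1 : T * Tᵀ = 1 := by
      ext j j'
      have h2 := (Finset.sum_eq_zero_iff_of_nonneg fun j _ =>
        Finset.sum_nonneg fun j' _ => abs_nonneg _).1 h.symm j (Finset.mem_univ j)
      exact sub_eq_zero.1 (abs_eq_zero.1 ((Finset.sum_eq_zero_iff_of_nonneg
        fun j' _ => abs_nonneg _).1 h2 j' (Finset.mem_univ j')))
    have hO : Tᵀ ∈ Matrix.orthogonalGroup (Fin p) ℝ :=
      (Matrix.mem_orthogonalGroup_iff' (Fin p) ℝ).2 (by rw [Matrix.transpose_transpose]; exact h1)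
    refine Set.mem_iInter.1 hT.2 ⟨Tᵀ, hO⟩ ?_
    show T * Tᵀ ∈ U
    rw [h1]; exact hU1
  obtain ⟨μ, hμ, hμS⟩ := hS.exists_forall_le' hφ.continuousOn hpos
  refine ⟨min 1 (μ / ((p : ℝ) * p + 1)), lt_min one_pos (by positivity), fun T hT => ?_⟩
  by_contra hcon
  push Not at hcon
  have hmem : T ∈ S := by
    refine ⟨fun j _ l _ => ?_, Set.mem_iInter.2 fun O hmem => hcon O (hUW hmem)⟩
    have h := (abs_le.1 ((hT j j).trans (min_le_left _ _))).2
    rw [Matrix.one_apply_eq, Matrix.mul_apply] at h
    have h2 : T j l ^ 2 ≤ ∑ i, T j i * Tᵀ i j := by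
      simp only [Matrix.transpose_apply, ← sq]
      exact Finset.single_le_sum (fun i _ => sq_nonneg (T j i)) (Finset.mem_univ l)
    exact abs_le.1 (abs_le_of_sq_le_sq (by linarith) zero_le_two)
  have h : φ T ≤ (p : ℝ) * p * (μ / ((p : ℝ) * p + 1)) := by
    refine (Finset.sum_le_sum fun j _ => Finset.sum_le_sum fun j' _ =>
      (hT j j').trans (min_le_right _ _)).trans_eq ?_
    simp only [Finset.sum_const, Finset.card_univ, Fintype.card_fin, nsmul_eq_mul]
    ring
  have h' : (p : ℝ) * p * (μ / ((p : ℝ) * p + 1)) < μ := by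
    rw [mul_div_assoc', div_lt_iff₀ (by positivity)]
    nlinarith
  linarith [hμS T hmem]

/-- Matrices near the identity barely move a continuous function on a large box. -/
lemma exists_nhds_lin {T : Type} [TopologicalSpace T] [CompactSpace T]
    {Θ : T → (Fin p → Fin n → ℝ) → ℝ} (hΘ : Continuous (Function.uncurry Θ)) (R : ℝ) {η : ℝ}
    (hη : 0 < η) :
    ∃ W ∈ 𝓝 (1 : Matrix (Fin p) (Fin p) ℝ), ∀ A ∈ W, ∀ t x, (∀ j a, |x j a| ≤ R) →
      |Θ t (lin A x) - Θ t x| ≤ η := by
  set box : Set (Fin p → Fin n → ℝ) := Set.univ.pi fun _ => Set.univ.pi fun _ => Set.Icc (-R) R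
  have hK : IsCompact ((Set.univ : Set T) ×ˢ box) := isCompact_univ.prod
    (isCompact_univ_pi fun _ => isCompact_univ_pi fun _ => isCompact_Icc)
  have hc : Continuous fun z : Matrix (Fin p) (Fin p) ℝ × (T × (Fin p → Fin n → ℝ)) =>
      Θ z.2.1 (lin z.1 z.2.2) - Θ z.2.1 z.2.2 :=
    (hΘ.comp ((continuous_fst.comp continuous_snd).prodMk
      (continuous_lin.comp (continuous_fst.prodMk (continuous_snd.comp continuous_snd))))).sub
      (hΘ.comp continuous_snd)
  have key : ∀ᶠ A in 𝓝 (1 : Matrix (Fin p) (Fin p) ℝ), ∀ y ∈ (Set.univ : Set T) ×ˢ box,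
      |Θ y.1 (lin A y.2) - Θ y.1 y.2| < η := by
    refine hK.eventually_forall_of_forall_eventually fun y _ => ?_
    refine (hc.abs.tendsto (1, y)).eventually_lt_const ?_
    simp [lin_one, hη]
  exact ⟨_, key, fun A hA t x hx =>
    (hA (t, x) ⟨Set.mem_univ t, fun j _ a _ => abs_le.1 (hx j a)⟩).le⟩

/-- A few rows of a Haar rotation against a Gaussian matrix divided by `√M`, uniformly. -/
theorem haar_gauss (p n : ℕ) {T : Type} [TopologicalSpace T] [CompactSpace T]
    {Θ : T → (Fin p → Fin n → ℝ) → ℝ} (hΘ : Continuous (Function.uncurry Θ))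
    (hK : ∀ t x, |Θ t x| ≤ 1) (B : ℝ) {ε : ℝ} (hε : 0 < ε) :
    ∀ᶠ M : ℕ in atTop, ∀ c : Fin p → Fin M, Function.Injective c →
      ∀ v : Fin n → Fin M → ℝ, (∀ a, dot (v a) (v a) ≤ B * M) → ∀ t : T,
        |∫ V, Θ t (fr V c v) ∂orthHaar M -
          expVal (Θ t) (fun a i => v a i / Real.sqrt M)| ≤ ε := by
  set R : ℝ := Real.sqrt (6 * (p * n * |B|) / ε) + 1 with hR
  have hR0 : 0 < R := by positivity
  have hRb : 2 * (p * n * |B|) / R ^ 2 ≤ ε / 3 := by
    have h1 : 6 * (p * n * |B|) / ε ≤ R ^ 2 := by
      have := Real.sq_sqrt (show 0 ≤ 6 * (p * n * |B|) / ε by positivity)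
      nlinarith [Real.sqrt_nonneg (6 * (p * n * |B|) / ε)]
    rw [div_le_iff₀ hε] at h1
    rw [div_le_iff₀ (by positivity)]
    linarith
  obtain ⟨W, hW, hWΘ⟩ := exists_nhds_lin hΘ R (show 0 < ε / 3 by linarith)
  obtain ⟨δ, hδ, hnear⟩ := exists_near_orth hW
  have hlim : Tendsto (fun M : ℕ => 2 / δ * ((p : ℝ) * p * (gaussC + 1)) / Real.sqrt M) atTop
      (𝓝 0) :=
    (Real.tendsto_sqrt_atTop.comp tendsto_natCast_atTop_atTop).const_div_atTop _
  filter_upwards [hlim.eventually_lt_const (show (0 : ℝ) < ε / 3 by linarith), eventually_gt_atTop 0]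
    with M hM hM0
  intro c hc v hv t
  set ν := Measure.pi fun _ : Fin p => gam (Fin M)
  have hMr : (0 : ℝ) < M := by exact_mod_cast hM0
  set sM := Real.sqrt M
  have hsM : 0 < sM := Real.sqrt_pos.2 hMr
  have hsMsq : sM * sM = M := Real.mul_self_sqrt hMr.le
  have hΘc : Continuous (Θ t) := hΘ.comp (continuous_const.prodMk continuous_id)
  set J := ∫ V, Θ t (fr V c v) ∂orthHaar M with hJ
  set I : (Fin p → Fin M → ℝ) → ℝ := fun g =>
    ∫ V, Θ t (fun j => forms (fun a => act V (fun i => v a i / sM)) (g j)) ∂orthHaar M with hI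
  have hc2 : Continuous fun z : OG M × (Fin p → Fin M → ℝ) =>
      Θ t (fun j => forms (fun a => act z.1 (fun i => v a i / sM)) (z.2 j)) := by
    refine hΘc.comp (continuous_pi fun j => continuous_pi fun a => ?_)
    show Continuous fun z : OG M × (Fin p → Fin M → ℝ) =>
      ∑ i, z.2 j i * act z.1 (fun i => v a i / sM) i
    exact continuous_finsetSum _ fun i _ =>
      ((continuous_apply_apply j i).comp continuous_snd).mul
        ((continuous_apply i).comp ((continuous_act _).comp continuous_fst))
  have hi2 : Integrable (fun z : OG M × (Fin p → Fin M → ℝ) =>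
      Θ t (fun j => forms (fun a => act z.1 (fun i => v a i / sM)) (z.2 j)))
      ((orthHaar M).prod ν) :=
    Integrable.of_bound hc2.measurable.aestronglyMeasurable 1
      (Eventually.of_forall fun z => hK t _)
  have hexp : expVal (Θ t) (fun a i => v a i / sM) = ∫ g, I g ∂ν := by
    rw [← integral_integral_swap hi2]
    have e : ∀ V : OG M, ∫ g, Θ t (fun j => forms (fun a => act V (fun i => v a i / sM)) (g j)) ∂ν =
        expVal (Θ t) (fun a i => v a i / sM) := fun V =>
      expVal_congr hΘc.measurable _ _ (funext fun a => funext fun b => dot_act V _ _)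
    simp only [e, integral_const, probReal_univ, one_smul]
  -- the pointwise comparison
  set dev : (Fin p → Fin M → ℝ) → ℝ := fun g =>
    ∑ j, ∑ j', |dot (g j) (g j') - if j = j' then (M : ℝ) else 0| with hdev
  have hx2 : ∀ V : OG M, 0 ≤ ∑ j, ∑ a, fr V c v j a ^ 2 := fun V =>
    Finset.sum_nonneg fun _ _ => Finset.sum_nonneg fun _ _ => sq_nonneg _
  have hmom : ∫ V, ∑ j, ∑ a, fr V c v j a ^ 2 ∂orthHaar M ≤ p * n * |B| := by
    have hcc : ∀ j a, Continuous fun V : OG M => fr V c v j a ^ 2 := fun j a =>
      ((continuous_apply a).comp ((continuous_apply j).comp (continuous_fr c v))).pow 2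
    rw [integral_finsetSum _ fun j _ =>
      integrable_cont (continuous_finsetSum _ fun a _ => hcc j a)]
    simp only [integral_finsetSum _ fun a (_ : a ∈ Finset.univ) => integrable_cont (hcc _ a)]
    simp only [fr, integral_act_sq]
    refine (Finset.sum_le_sum fun j _ => Finset.sum_le_sum fun a _ =>
      show dot (v a) (v a) / M ≤ |B| from (div_le_iff₀ hMr).2
        ((hv a).trans (mul_le_mul_of_nonneg_right (le_abs_self B) hMr.le))).trans_eq ?_
    simp only [Finset.sum_const, Finset.card_univ, Fintype.card_fin, nsmul_eq_mul]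
    ring
  have hpt : ∀ g, |I g - J| ≤ ε / 3 + ε / 3 + 2 / (δ * M) * dev g := by
    intro g
    have hdev0 : 0 ≤ dev g :=
      Finset.sum_nonneg fun _ _ => Finset.sum_nonneg fun _ _ => abs_nonneg _
    have habs : |I g - J| ≤ 2 := by
      have h1 : |I g| ≤ 1 := abs_integral_le_one (fun V => hK t _)
      have h2 : |J| ≤ 1 := abs_integral_le_one (fun V => hK t _)
      linarith [abs_sub (I g) J]
    by_cases hgood : ∀ j j', |dot (g j) (g j') - if j = j' then (M : ℝ) else 0| ≤ δ * M
    · obtain ⟨Q, hQ⟩ := exists_rot_support g hc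
      set T' : Matrix (Fin p) (Fin p) ℝ := Matrix.of fun j l => act Q (g j) (c l) / sM with hT'
      have hdot : ∀ j y, dot (g j) y = ∑ l, act Q (g j) (c l) * act Q y (c l) := by
        intro j y
        rw [← dot_act Q, dot, sum_split hc (fun i => act Q (g j) i * act Q y i),
          Finset.sum_eq_zero (s := (Finset.univ.map ⟨c, hc⟩)ᶜ) fun i hi => by
            rw [hQ j i (not_mem_range hc hi), zero_mul], add_zero]
      have hgram : ∀ j j', (T' * T'ᵀ) j j' = dot (g j) (g j') / M := by
        intro j j'
        rw [hdot, Matrix.mul_apply, Finset.sum_div]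
        exact Finset.sum_congr rfl fun l _ => by
          simp only [hT', Matrix.of_apply, Matrix.transpose_apply]
          rw [div_mul_div_comm, hsMsq]
      obtain ⟨O, hO⟩ := hnear T' fun j j' => by
        rw [hgram, Matrix.one_apply, show (if j = j' then (1 : ℝ) else 0) =
          (if j = j' then (M : ℝ) else 0) / M by split_ifs <;> simp [hMr.ne'],
          ← sub_div, abs_div, abs_of_pos hMr, div_le_iff₀ hMr]
        exact hgood j j'
      have hlin : ∀ V : OG M, (fun j => forms (fun a => act V (fun i => v a i / sM)) (g j)) =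
          lin T' (fr (Q * V) c v) := by
        intro V
        funext j a
        have e : (fun i => v a i / sM) = sM⁻¹ • v a := funext fun i => by
          simp [div_eq_inv_mul]
        simp only [forms, e]
        simp only [hdot, lin, hT', Matrix.of_apply, fr, act_smul, act_mul,
          Pi.smul_apply, smul_eq_mul, div_eq_inv_mul]
        exact Finset.sum_congr rfl fun l _ => by ring
      have hrot : ∀ V : OG M, lin T' (fr V c v) =
          lin (T' * (O : Matrix (Fin p) (Fin p) ℝ)) (fr (embed hc O⁻¹ * V) c v) := by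
        intro V
        have e : fr (embed hc O⁻¹ * V) c v =
            lin ((O⁻¹ : OG p) : Matrix (Fin p) (Fin p) ℝ) (fr V c v) := by
          funext l a
          simp only [fr, act_mul, act_embed, embedMap_in hc]
          rfl
        rw [e, lin_lin, Matrix.mul_assoc]
        congr 1
        have : (O : Matrix (Fin p) (Fin p) ℝ) * ((O⁻¹ : OG p) : Matrix (Fin p) (Fin p) ℝ) = 1 :=
          congrArg Subtype.val (mul_inv_cancel O)
        rw [this, Matrix.mul_one]
      have hIg : I g = ∫ V, Θ t (lin (T' * (O : Matrix (Fin p) (Fin p) ℝ)) (fr V c v))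
          ∂orthHaar M := by
        simp only [hI, hlin]
        rw [integral_mul_left_eq_self (μ := orthHaar M) (fun V => Θ t (lin T' (fr V c v))) Q]
        simp only [hrot]
        exact integral_mul_left_eq_self (μ := orthHaar M)
          (fun V => Θ t (lin (T' * (O : Matrix (Fin p) (Fin p) ℝ)) (fr V c v))) (embed hc O⁻¹)
      have hcl : Continuous fun V : OG M =>
          Θ t (lin (T' * (O : Matrix (Fin p) (Fin p) ℝ)) (fr V c v)) :=
        hΘc.comp (continuous_lin.comp (continuous_const.prodMk (continuous_fr c v)))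
      have hbd : ∀ V, |Θ t (lin (T' * (O : Matrix (Fin p) (Fin p) ℝ)) (fr V c v)) -
          Θ t (fr V c v)| ≤ ε / 3 + 2 / R ^ 2 * ∑ j, ∑ a, fr V c v j a ^ 2 := by
        intro V
        by_cases hx : ∀ j a, |fr V c v j a| ≤ R
        · have := hWΘ _ hO t _ hx
          have : 0 ≤ 2 / R ^ 2 * ∑ j, ∑ a, fr V c v j a ^ 2 := mul_nonneg (by positivity) (hx2 V)
          linarith
        · push Not at hx
          obtain ⟨j, a, hja⟩ := hx
          have h1 : R ^ 2 ≤ ∑ j, ∑ a, fr V c v j a ^ 2 := by
            refine le_trans ?_ ((Finset.single_le_sum (fun a _ => sq_nonneg (fr V c v j a))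
              (Finset.mem_univ a)).trans (Finset.single_le_sum
              (f := fun j => ∑ a, fr V c v j a ^ 2)
              (fun j _ => Finset.sum_nonneg fun _ _ => sq_nonneg _) (Finset.mem_univ j)))
            rw [← sq_abs (fr V c v j a)]
            exact pow_le_pow_left₀ hR0.le hja.le 2
          have h2 : 2 ≤ 2 / R ^ 2 * ∑ j, ∑ a, fr V c v j a ^ 2 := by
            rw [div_mul_eq_mul_div, le_div_iff₀ (by positivity)]
            linarith
          have := abs_sub (Θ t (lin (T' * (O : Matrix (Fin p) (Fin p) ℝ)) (fr V c v)))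
            (Θ t (fr V c v))
          have := hK t (lin (T' * (O : Matrix (Fin p) (Fin p) ℝ)) (fr V c v))
          have := hK t (fr V c v)
          linarith
      have hcx : Continuous fun V : OG M => ∑ j, ∑ a, fr V c v j a ^ 2 :=
        continuous_finsetSum _ fun j _ => continuous_finsetSum _ fun a _ =>
          ((continuous_apply a).comp ((continuous_apply j).comp (continuous_fr c v))).pow 2
      have hcf : Continuous fun V : OG M => Θ t (fr V c v) := hΘc.comp (continuous_fr c v)
      rw [hIg, hJ, ← integral_sub (integrable_cont hcl) (integrable_cont hcf)]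
      refine abs_integral_le_integral_abs.trans ((integral_mono
        (integrable_cont (hcl.sub hcf).abs)
        (integrable_cont (continuous_const.add (hcx.const_mul _))) hbd).trans ?_)
      simp only [Pi.add_apply]
      rw [integral_add (integrable_const _) (integrable_cont (hcx.const_mul _)), integral_const_mul]
      simp only [integral_const, probReal_univ, one_smul]
      have h3 : 2 / R ^ 2 * (∫ V, ∑ j, ∑ a, fr V c v j a ^ 2 ∂orthHaar M) ≤ ε / 3 := by
        refine le_trans (mul_le_mul_of_nonneg_left hmom (by positivity)) ?_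
        rw [div_mul_eq_mul_div]
        exact hRb
      have : 0 ≤ 2 / (δ * M) * dev g := mul_nonneg (by positivity) hdev0
      linarith
    · push Not at hgood
      obtain ⟨j, j', hjj⟩ := hgood
      have h1 : δ * M ≤ dev g := hjj.le.trans ((Finset.single_le_sum
        (f := fun j' => |dot (g j) (g j') - if j = j' then (M : ℝ) else 0|)
        (fun _ _ => abs_nonneg _) (Finset.mem_univ j')).trans
        (Finset.single_le_sum
          (f := fun j => ∑ j', |dot (g j) (g j') - if j = j' then (M : ℝ) else 0|)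
          (fun _ _ => Finset.sum_nonneg fun _ _ => abs_nonneg _) (Finset.mem_univ j)))
      have h2 : 2 ≤ 2 / (δ * M) * dev g := by
        rw [div_mul_eq_mul_div, le_div_iff₀ (by positivity)]
        linarith
      linarith
  have hid : Integrable dev ν := integrable_finsetSum _ fun j _ =>
    integrable_finsetSum _ fun j' _ => (integral_gram_dev j j').1
  have hdint : ∫ g, dev g ∂ν ≤ (p : ℝ) * p * ((gaussC + 1) * sM) := by
    rw [hdev, integral_finsetSum _ fun j _ =>
      integrable_finsetSum _ fun j' _ => (integral_gram_dev j j').1]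
    simp only [integral_finsetSum _ fun j' (_ : j' ∈ Finset.univ) => (integral_gram_dev _ j').1]
    refine (Finset.sum_le_sum fun j _ => Finset.sum_le_sum fun j' _ =>
      (integral_gram_dev j j').2).trans_eq ?_
    simp only [Finset.sum_const, Finset.card_univ, Fintype.card_fin, nsmul_eq_mul]
    ring
  have hiI : Integrable I ν := hi2.integral_prod_right
  rw [hexp, abs_sub_comm, show J = ∫ _g, J ∂ν by simp,
    ← integral_sub hiI (integrable_const _)]
  refine abs_integral_le_integral_abs.trans ((integral_mono ((hiI.sub (integrable_const _)).abs)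
    ((integrable_const _).add (hid.const_mul _)) hpt).trans ?_)
  simp only [Pi.add_apply]
  rw [integral_add (integrable_const _) (hid.const_mul _), integral_const_mul]
  simp only [integral_const, probReal_univ, one_smul]
  have h4 : 2 / (δ * M) * (∫ g, dev g ∂ν) ≤ ε / 3 := by
    refine le_trans (mul_le_mul_of_nonneg_left hdint (by positivity)) (le_trans (le_of_eq ?_) hM.le)
    rw [← hsMsq]
    field_simp
  linarith

end Vale.Agent.P166.Haar2.Fresh
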