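import Vale.Agent.P166.Haar2.Fresh.SysTail

/-!
Fresh top coordinates and a test field: the mean logarithm of a weight converges to its value on
the cascades.
-/

noncomputable section

open MeasureTheory ProbabilityTheory Filter Finset
open scoped BigOperators Topology

namespace Vale.Agent.P166.Haar2.Fresh

open Vale.Agent.P157 (gam dot)
open Vale.Agent.P157.Parisi (Cube Path scale)
open Vale.Agent.P157.Parisi.Cont (gramOf gq gq_mem)
open Vale.Agent.P168 (Shape shapeProb)
open Vale.Agent.P168.Cascade (Exps IsTree isTree_of_prob)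
open Vale.Agent.P168.Limit (rav rav_eq_prod abs_rav_le)

/-- The powers of a path form a covariance path. -/
lemma powEl_isCov {r : ℕ} {m : Fin r → ℝ} {q : Fin (r + 1) → ℝ}
    (hq : Vale.Agent.P157.Parisi.IsPath m q) (k : ℕ) : (powEl q k).IsCov :=
  ⟨fun p p' h => pow_le_pow_left₀ (hq.nonneg.trans (hq.mono (Fin.zero_le p))) (hq.mono h) k,
    pow_nonneg hq.nonneg k,
    pow_le_one₀ (hq.nonneg.trans (hq.mono (Fin.zero_le _))) hq.le_one⟩

/-- Fresh coordinates. -/
theorem fresh (hBF : BlockFactsStmt) : FreshStmt := by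
  intro K A Q ξ k coords X C hStd hAp hinj htop hXc hX
  have hC : 0 < C := by
    have h := hX 0
    exact ((Real.exp_pos _).trans_le h.1).trans_le h.2
  have hX' : ∀ z, Real.exp (-yC C z) ≤ X z ∧ X z ≤ C := hX
  obtain ⟨Cb, hCb⟩ := hBF K A
  have hct : 0 < A.ctop := A.pos _
  set Bd := max (2 / A.ctop) (max Cb 1) with hBd
  have hBd1 : 1 ≤ Bd := (le_max_right _ _).trans (le_max_right _ _)
  -- the covariance paths
  have hP : ∀ j, (A.coordEl (ξ j).m (ξ j).q).IsCov ∧ (A.coordEl (ξ j).m (ξ j).q).s ≤ Bd := fun j =>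
    ⟨(hCb _ _ _ (ξ j).isPath).2.1, (hCb _ _ _ (ξ j).isPath).2.2.1.trans
      ((le_max_left _ _).trans (le_max_right _ _))⟩
  have hE : ∀ j, (powEl (ξ j).q k).IsCov ∧ (powEl (ξ j).q k).s ≤ Bd := fun j =>
    ⟨powEl_isCov (ξ j).isPath k, hBd1⟩
  have hexps : ∀ j, Exps (ξ j).m := fun j =>
    ⟨(ξ j).isPath.pos, (ξ j).isPath.lt_one, (ξ j).isPath.strictMono⟩
  -- the size of the top block
  have hfr : Tendsto (fun j => (topN (Q.w j) : ℝ) / Q.N j) atTop (𝓝 A.ctop) :=
    hStd.fracs (Fin.last K)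
  have hB : ∀ᶠ j in atTop, (Q.N j : ℝ) ≤ Bd * topN (Q.w j) := by
    filter_upwards [hfr.eventually_const_lt (half_lt_self hct)] with j hj
    have hN : (0 : ℝ) < Q.N j := Nat.cast_pos.2 (hStd.pos j)
    rw [lt_div_iff₀ hN] at hj
    refine le_trans ?_ (mul_le_mul_of_nonneg_right (le_max_left _ _) (Nat.cast_nonneg _))
    rw [div_mul_eq_mul_div, le_div_iff₀ hct]
    linarith
  have hMtop : Tendsto (fun j => topN (Q.w j)) atTop atTop := by
    rw [← tendsto_natCast_atTop_iff (R := ℝ)]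
    refine ((tendsto_natCast_atTop_atTop.comp hStd.size).atTop_mul_pos hct hfr).congr fun j => ?_
    exact mul_div_cancel₀ (topN (Q.w j) : ℝ) (Nat.cast_ne_zero.2 (hStd.pos j).ne')
  have hratio : Tendsto (fun j => (Q.N j : ℝ) / topN (Q.w j)) atTop (𝓝 A.ctop⁻¹) :=
    (hfr.inv₀ hct.ne').congr fun j => inv_div _ _
  rw [NormedAddGroup.tendsto_nhds_zero]
  intro δ hδ
  -- the parameters
  set K1 := 2 * ((C ^ 2 * (2 + 2 * (K + 1 : ℕ) * ((K + 1 : ℕ) * (Bd ^ 2 * mom4))) + 1) +
    C ^ 2 * mom4) with hK1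
  set K2 := C ^ 2 * (2 + 2 * ((K + 1 : ℕ) + 1) * (((K + 1 : ℕ) + 1) * (Bd ^ 2 * mom4))) with hK2
  have hK10 : 0 ≤ K1 := by have := mom4_nonneg; positivity
  have hK20 : 0 ≤ K2 := by have := mom4_nonneg; positivity
  set R := 8 * (K1 + K2 + 1) / δ with hR
  have hR0 : 0 < R := by positivity
  have hKR : K1 / R ≤ δ / 8 ∧ K2 / R ≤ δ / 8 := by
    have e : R * (δ / 8) = K1 + K2 + 1 := by rw [hR]; field_simp
    constructor <;> rw [div_le_iff₀ hR0] <;> linarith [mul_comm R (δ / 8)]
  set ε := δ / (8 * Real.exp R) with hε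
  have hε0 : 0 < ε := by positivity
  have hεR : ε * Real.exp R = δ / 8 := by rw [hε]; field_simp
  set Cw := max (max (C + ε) ε⁻¹) 1
  have hCw : 1 ≤ Cw := le_max_right _ _
  have hCw0 : 0 < Cw := by linarith
  set W : (Fin (K + 1) ⊕ Fin 1 → ℝ) → ℝ := fun z => X z + ε with hWdef
  have hWc : Continuous W := hXc.add continuous_const
  have hW : ∀ z, Cw⁻¹ ≤ W z ∧ W z ≤ Cw := fun z => by
    have h0 : 0 < X z := (Real.exp_pos _).trans_le (hX z).1
    refine ⟨?_, (show W z ≤ C + ε from add_le_add (hX z).2 le_rfl).trans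
      ((le_max_left _ _).trans (le_max_left _ _))⟩
    exact ((inv_le_comm₀ hCw0 hε0).2 ((le_max_right _ _).trans (le_max_left _ _))).trans
      (show ε ≤ X z + ε by linarith)
  set h : (Fin (K + 1) ⊕ Fin 1 → ℝ) → ℝ := fun z => 1 - W z / Cw with hh
  have hhc : Continuous h := continuous_const.sub (hWc.div_const _)
  have hhb : ∀ z, |h z| ≤ 1 := fun z => by
    obtain ⟨h1, h2⟩ := Vale.Agent.P157.Parisi.Cont.one_sub_div_mem hCw (hW z).1 (hW z).2
    rw [hh, abs_of_nonneg h1]
    exact h2.trans (gq_mem hCw).2.le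
  -- the terms
  set U : ℕ → ℕ → ℝ := fun d j =>
    ∫ q : (TIdx (Q.N j) k → ℝ) × Dz (K + 2) (Q.N j) (Q.B j),
      rav (d + 1) ((Q.sys j).ham (scale (Q.N j)) (Q.x j) (Q.B j) q.2)
        (fun σ => prodH h (fun i => testZ q.1 (σ i)) fun i l => rot q.2.1 (σ l) (coords j i))
      ∂(gam (TIdx (Q.N j) k)).prod (dzLaw (K + 2) (Q.N j) (Q.B j)) with hU
  set V : ℕ → ℕ → ℝ := fun d j => ∑ v : Shape (ξ j).r (d + 1), shapeProb (ξ j).m (d + 1) v *
    pairVal (p := K + 1) h (elVec (A.coordEl (ξ j).m (ξ j).q) v) (elVec (powEl (ξ j).q k) v)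
    with hV
  have hUV : ∀ d, Tendsto (fun j => U d j - V d j) atTop (𝓝 0) := by
    intro d
    obtain ⟨Φ, hΦc, hΦ⟩ := exists_pairFun (n := d + 1) hhc hhb (show 0 < Bd by linarith)
    set F : (Fin (K + 2) → Fin (d + 1) → Fin (d + 1) → ℝ) → ℝ := fun R =>
      Φ ((fun a b => A.ctop⁻¹ * R (Fin.last K).succ a b), fun a b => R 0 a b ^ k) with hF
    have hFc : Continuous F := hΦc.comp (Continuous.prodMk
      (continuous_pi fun a => continuous_pi fun b => continuous_const.mul
        ((continuous_apply b).comp ((continuous_apply a).comp (continuous_apply _))))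
      (continuous_pi fun a => continuous_pi fun b =>
        ((continuous_apply b).comp ((continuous_apply a).comp (continuous_apply _))).pow k))
    have htree : ∀ j, A.treeExpV (ξ j) (d + 1) F = V d j := by
      intro j
      refine Finset.sum_congr rfl fun v _ => ?_
      by_cases h0 : shapeProb (ξ j).m (d + 1) v = 0
      · simp [h0]
      have hv : IsTree v := isTree_of_prob h0
      congr 1
      have g1 := gramOf_elVec (hP j).1 hv
      have g2 := gramOf_elVec (hE j).1 hv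
      rw [← hΦ (elVec (A.coordEl (ξ j).m (ξ j).q) v) (elVec (powEl (ξ j).q k) v)
        (fun a => ((congrFun (congrFun g1 a) a).trans (if_pos rfl)).trans_le (hP j).2)
        (fun a => ((congrFun (congrFun g2 a) a).trans (if_pos rfl)).trans_le le_rfl), g1, g2]
      simp only [hF, Atoms.vgram, Fin.cons_succ, Fin.cons_zero, Path.gram]
      congr 1
      refine Prod.ext (funext fun a => funext fun b => ?_) (funext fun a => funext fun b => ?_)
      · show A.ctop⁻¹ * _ = if a = b then _ else _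
        split_ifs <;> rfl
      · show _ ^ k = if a = b then _ else _
        split_ifs
        · exact one_pow k
        · rfl
    have hAd := hAp (d + 1) F hFc
    simp only [htree] at hAd
    suffices hS : Tendsto (fun j => U d j - Q.mean j (d + 1) F) atTop (𝓝 0) by
      simpa using (hS.add hAd).congr fun j => by ring
    rw [NormedAddGroup.tendsto_nhds_zero]
    intro η hη
    obtain ⟨M₀, hM₀⟩ := sys_term hhc hhb (d + 1) Bd (show 0 < η / 3 by linarith)
    set box : Set (Fin (d + 1) → Fin (d + 1) → ℝ) :=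
      Set.univ.pi fun _ => Set.univ.pi fun _ => Set.Icc (-1) 1
    have hbox : IsCompact box :=
      isCompact_univ_pi fun _ => isCompact_univ_pi fun _ => isCompact_Icc
    have hΨ : Continuous fun z : ℝ × ((Fin (d + 1) → Fin (d + 1) → ℝ) ×
        (Fin (d + 1) → Fin (d + 1) → ℝ)) =>
        Φ ((fun a b => z.1 * z.2.1 a b), fun a b => z.2.2 a b ^ k) :=
      hΦc.comp (Continuous.prodMk
        (continuous_pi fun a => continuous_pi fun b => continuous_fst.mul
          ((continuous_apply_apply a b).comp (continuous_fst.comp continuous_snd)))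
        (continuous_pi fun a => continuous_pi fun b =>
          ((continuous_apply_apply a b).comp (continuous_snd.comp continuous_snd)).pow k))
    have hnear : ∀ᶠ c in 𝓝 A.ctop⁻¹, ∀ y ∈ box ×ˢ box,
        |Φ ((fun a b => c * y.1 a b), fun a b => y.2 a b ^ k) -
          Φ ((fun a b => A.ctop⁻¹ * y.1 a b), fun a b => y.2 a b ^ k)| < η / 3 := by
      refine (hbox.prod hbox).eventually_forall_of_forall_eventually fun y _ => ?_
      refine (((hΨ.sub (hΨ.comp (continuous_const.prodMk continuous_snd))).abs).tendsto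
        (A.ctop⁻¹, y)).eventually_lt_const ?_
      show |Φ _ - Φ _| < η / 3
      rw [sub_self, abs_zero]
      linarith
    filter_upwards [hMtop.eventually_ge_atTop (max M₀ 1), hB, hratio.eventually hnear] with j hjM hjB hjn
    have h1 := hM₀ (Q.N j) (Q.N j) k (Q.a j) (Q.w j) (scale (Q.N j)) (Q.x j) (Q.B j) (coords j)
      (hStd.pos j) ((le_max_left _ _).trans hjM) hjB (hinj j) (htop j)
    have hM1 : 0 < topN (Q.w j) := lt_of_lt_of_le Nat.one_pos ((le_max_right _ _).trans hjM)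
    set P := stdSys (Q.a j) (Q.w j)
    have hov : ∀ (W' : OG (Q.N j)) (σ : Fin (d + 1) → Cube (Q.N j)),
        pairVal h (topVec (Q.w j) W' σ) (tVec k σ) =
          Φ ((fun a b => (Q.N j : ℝ) / topN (Q.w j) * P.ovs W' σ (Fin.last K).succ a b),
            fun a b => P.ovs W' σ 0 a b ^ k) := fun W' σ => by
      rw [← hΦ _ _ (fun a => dot_topVec_le (Q.w j) hM1 hjB W' σ a)
        (fun a => (dot_tVec (hStd.pos j) σ a).le), gram_topVec (Q.a j), gram_tVec (Q.a j) (Q.w j)]
    have hdiff : ∀ (W' : OG (Q.N j)) (σ : Fin (d + 1) → Cube (Q.N j)),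
        |pairVal h (topVec (Q.w j) W' σ) (tVec k σ) - F (P.ovs W' σ)| ≤ η / 3 := fun W' σ => by
      rw [hov, hF]
      exact (hjn (P.ovs W' σ (Fin.last K).succ, P.ovs W' σ 0)
        ⟨fun a _ b _ => abs_le.1 (GG.abs_ov_le P le_rfl W' _ _ _),
          fun a _ b _ => abs_le.1 (GG.abs_ov_le P le_rfl W' _ _ _)⟩).le
    have hmF : ∀ σ : Fin (d + 1) → Cube (Q.N j), Measurable fun W' : OG (Q.N j) => F (P.ovs W' σ) :=
      fun σ => hFc.measurable.comp (measurable_pi_lambda _ fun g =>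
        measurable_pi_lambda _ fun a => measurable_pi_lambda _ fun b => GG.measurable_ov P g _ _)
    have hmP : ∀ σ : Fin (d + 1) → Cube (Q.N j), Measurable fun W' : OG (Q.N j) =>
        pairVal h (topVec (Q.w j) W' σ) (tVec k σ) := fun σ => by
      rw [funext fun W' => hov W' σ]
      exact hΦc.measurable.comp (Measurable.prodMk
        (measurable_pi_lambda _ fun a => measurable_pi_lambda _ fun b =>
          (GG.measurable_ov P _ _ _).const_mul _)
        (measurable_pi_lambda _ fun a => measurable_pi_lambda _ fun b =>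
          (GG.measurable_ov P _ _ _).pow_const k))
    have hbP : ∀ (W' : OG (Q.N j)) (σ : Fin (d + 1) → Cube (Q.N j)),
        |pairVal h (topVec (Q.w j) W' σ) (tVec k σ)| ≤ 1 := fun W' σ =>
      abs_integral_le_one fun g => abs_integral_le_one fun G => abs_prodH_le hhb _ _
    have hbF : ∀ (W' : OG (Q.N j)) (σ : Fin (d + 1) → Cube (Q.N j)),
        |F (P.ovs W' σ)| ≤ 1 + η / 3 := fun W' σ => by
      have h1 := abs_le.1 (hbP W' σ)
      have h2 := abs_le.1 (hdiff W' σ)
      rw [abs_le]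
      constructor <;> linarith
    have h2 : |(∫ z, rav (d + 1) (P.ham (scale (Q.N j)) (Q.x j) (Q.B j) z)
        (fun σ => pairVal h (topVec (Q.w j) z.1 σ) (tVec k σ))
          ∂dzLaw (K + 2) (Q.N j) (Q.B j)) - Q.mean j (d + 1) F| ≤ η / 3 := by
      show |_ - ∫ z, rav (d + 1) (P.ham (scale (Q.N j)) (Q.x j) (Q.B j) z)
        (fun σ => F (P.ovs z.1 σ)) ∂dzLaw (K + 2) (Q.N j) (Q.B j)| ≤ _
      rw [← integral_sub (GG.integrable_rav (F := fun W' σ => pairVal h (topVec (Q.w j) W' σ) (tVec k σ))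
          hmP hbP) (GG.integrable_rav (F := fun W' σ => F (P.ovs W' σ)) hmF hbF),
        ← Real.norm_eq_abs]
      refine (norm_integral_le_of_norm_le_const (C := η / 3)
        (Eventually.of_forall fun z => ?_)).trans_eq (by rw [probReal_univ, mul_one])
      rw [Real.norm_eq_abs, rav, rav, ← Finset.sum_sub_distrib]
      simp only [← mul_sub]
      exact abs_rav_le (d + 1) _ _ fun σ => hdiff z.1 σ
    rw [Real.norm_eq_abs]
    have h3 : U d j = ∫ q : (TIdx (Q.N j) k → ℝ) × Dz (K + 2) (Q.N j) (Q.B j),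
        rav (d + 1) (P.ham (scale (Q.N j)) (Q.x j) (Q.B j) q.2)
          (fun σ => prodH h (fun i => testZ q.1 (σ i)) fun i l => rot q.2.1 (σ l) (coords j i))
        ∂(gam (TIdx (Q.N j) k)).prod (dzLaw (K + 2) (Q.N j) (Q.B j)) := rfl
    rw [← h3] at h1
    have h1' := abs_le.1 h1
    have h2' := abs_le.1 h2
    rw [abs_lt]
    constructor <;> linarith
  obtain ⟨hg0, hg1⟩ := gq_mem hCw
  obtain ⟨D, hD⟩ := (((tendsto_pow_atTop_nhds_zero_of_lt_one hg0 hg1).comp
    (tendsto_add_atTop_nat 1)).div_const (1 - gq Cw)).eventually_lt_const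
      (show (0 : ℝ) / (1 - gq Cw) < δ / 8 by rw [zero_div]; linarith) |>.exists
  have hsum : Tendsto (fun j => ∑ d ∈ range D, (U d j - V d j) / ((d : ℝ) + 1)) atTop (𝓝 0) := by
    rw [← Finset.sum_const_zero (s := range D)]
    exact tendsto_finsetSum _ fun d _ => by simpa using (hUV d).div_const ((d : ℝ) + 1)
  obtain ⟨M₁, hM₁⟩ := sys_tail (K := K) hXc hC hX' Bd hε0 hR0
  filter_upwards [NormedAddGroup.tendsto_nhds_zero.1 hsum (δ / 8) (by linarith),
    hMtop.eventually_ge_atTop M₁, hB] with j hjs hjM hjB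
  rw [Real.norm_eq_abs] at hjs ⊢
  -- the four comparisons
  have c1 : |(Q.sys j).freshLog (scale (Q.N j)) (Q.x j) (Q.B j) k (coords j) W -
      (Q.sys j).freshLog (scale (Q.N j)) (Q.x j) (Q.B j) k (coords j) X| ≤ δ / 8 + K1 / R :=
    (hM₁ (Q.N j) (Q.N j) k (Q.a j) (Q.w j) (scale (Q.N j)) (Q.x j) (Q.B j) (coords j)
      (hStd.pos j) hjM hjB (hinj j) (htop j)).trans_eq (by rw [hεR, hK1])
  have c2 : |(Q.sys j).freshLog (scale (Q.N j)) (Q.x j) (Q.B j) k (coords j) W -
      (Real.log Cw - ∑ d ∈ range D, U d j / ((d : ℝ) + 1))| ≤ gq Cw ^ (D + 1) / (1 - gq Cw) :=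
    sys_series (Q.sys j) (scale (Q.N j)) (Q.x j) (Q.B j) (coords j) hWc hCw hW D
  have c3 : |cascV (ξ j).m
        (Sum.elim (fun _ : Fin (K + 1) => A.coordEl (ξ j).m (ξ j).q) fun _ : Fin 1 => powEl (ξ j).q k) W -
      (Real.log Cw - ∑ d ∈ range D, V d j / ((d : ℝ) + 1))| ≤ gq Cw ^ (D + 1) / (1 - gq Cw) :=
    cascade_series (hexps j) (A.coordEl (ξ j).m (ξ j).q) (powEl (ξ j).q k) hCw hWc hW D
  have c4 : |cascV (ξ j).m
        (Sum.elim (fun _ : Fin (K + 1) => A.coordEl (ξ j).m (ξ j).q) fun _ : Fin 1 => powEl (ξ j).q k) W -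
      cascV (ξ j).m
        (Sum.elim (fun _ : Fin (K + 1) => A.coordEl (ξ j).m (ξ j).q) fun _ : Fin 1 => powEl (ξ j).q k) X| ≤
      δ / 8 + K2 / R :=
    (cascade_tail (hexps j) (A.coordEl (ξ j).m (ξ j).q) (powEl (ξ j).q k) (hP j).1 (hE j).1
      (hP j).2 (hE j).2 hXc hC hX' hε0 hR0).trans_eq (by rw [hεR, hK2])
  simp only [sub_div, Finset.sum_sub_distrib] at hjs
  simp only [Function.comp_apply] at hD
  rw [abs_lt] at hjs ⊢
  rw [abs_le] at c1 c2 c3 c4
  constructor <;> linarith [hKR.1, hKR.2]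

end Vale.Agent.P166.Haar2.Fresh
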