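import Vale.Agent.P157.Parisi.Cont.Gauss
import Vale.Agent.P168.Upper.Product

/-!
Gaussian expectations over replicas of two kinds of linear forms, as functions of the two Gram
matrices.
-/

noncomputable section

open MeasureTheory ProbabilityTheory Filter
open scoped BigOperators Topology

namespace Vale.Agent.P166.Haar2.Fresh

open Vale.Agent.P157 (gam dot)
open Vale.Agent.P157.Parisi.Cont (gramOf forms expVal exists_gramFun continuous_forms map_forms_eq)
open Vale.Agent.P168.Upper (mp_curry integral_mp)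

variable {p n : ℕ}

/-- The product over replicas of a function of `p` fields and one more. -/
def prodH (h : (Fin p ⊕ Fin 1 → ℝ) → ℝ) (t : Fin n → ℝ) (x : Fin p → Fin n → ℝ) : ℝ :=
  ∏ a, h (Sum.elim (fun j => x j a) fun _ => t a)

lemma continuous_prodH {h : (Fin p ⊕ Fin 1 → ℝ) → ℝ} (hh : Continuous h) :
    Continuous fun z : (Fin n → ℝ) × (Fin p → Fin n → ℝ) => prodH h z.1 z.2 := by
  refine continuous_finsetProd _ fun a _ => hh.comp (continuous_pi fun d => ?_)
  rcases d with j | _
  · exact (continuous_apply a).comp ((continuous_apply j).comp continuous_snd)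
  · exact (continuous_apply a).comp continuous_fst

lemma abs_prodH_le {h : (Fin p ⊕ Fin 1 → ℝ) → ℝ} (hb : ∀ z, |h z| ≤ 1) (t : Fin n → ℝ)
    (x : Fin p → Fin n → ℝ) : |prodH h t x| ≤ 1 := by
  rw [prodH, Finset.abs_prod]
  exact Finset.prod_le_one (fun a _ => abs_nonneg _) fun a _ => hb _

/-- Its expectation over `p` copies of the forms `v` and one of the forms `u`. -/
def pairVal {ι κ : Type} [Fintype ι] [Fintype κ] (h : (Fin p ⊕ Fin 1 → ℝ) → ℝ)
    (v : Fin n → ι → ℝ) (u : Fin n → κ → ℝ) : ℝ :=
  ∫ g₂, expVal (prodH h (forms u g₂)) v ∂gam κ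

lemma pairVal_eq_prod {ι κ : Type} [Fintype ι] [Fintype κ] {h : (Fin p ⊕ Fin 1 → ℝ) → ℝ}
    (hh : Continuous h) (hb : ∀ z, |h z| ≤ 1) (v : Fin n → ι → ℝ) (u : Fin n → κ → ℝ) :
    pairVal h v u = ∫ z : (Fin p → ι → ℝ) × (κ → ℝ),
      prodH h (forms u z.2) (fun j => forms v (z.1 j))
        ∂(Measure.pi fun _ => gam ι).prod (gam κ) := by
  have hc : Continuous fun z : (Fin p → ι → ℝ) × (κ → ℝ) =>
      prodH h (forms u z.2) (fun j => forms v (z.1 j)) :=
    (continuous_prodH hh).comp (((continuous_forms u).comp continuous_snd).prodMk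
      (continuous_pi fun j => (continuous_forms v).comp ((continuous_apply j).comp continuous_fst)))
  rw [integral_prod_symm _ (Integrable.of_bound hc.measurable.aestronglyMeasurable 1
    (Eventually.of_forall fun z => abs_prodH_le hb _ _))]
  rfl

/-- A continuous function of the two Gram matrices giving the expectation. -/
lemma exists_pairFun {h : (Fin p ⊕ Fin 1 → ℝ) → ℝ} (hh : Continuous h) (hb : ∀ z, |h z| ≤ 1)
    {B : ℝ} (hB : 0 < B) :
    ∃ Φ : (Fin n → Fin n → ℝ) × (Fin n → Fin n → ℝ) → ℝ, Continuous Φ ∧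
      ∀ {ι κ : Type} [Fintype ι] [Fintype κ] (v : Fin n → ι → ℝ) (u : Fin n → κ → ℝ),
        (∀ a, dot (v a) (v a) ≤ B) → (∀ a, dot (u a) (u a) ≤ 1) →
          Φ (gramOf v, gramOf u) = pairVal h v u := by
  classical
  let E := Fintype.equivFin ((Fin p × Fin n) ⊕ Fin n)
  let Θ : (Fin 1 → Fin (Fintype.card ((Fin p × Fin n) ⊕ Fin n)) → ℝ) → ℝ := fun S =>
    prodH h (fun a => S 0 (E (Sum.inr a))) fun j a => Real.sqrt B * S 0 (E (Sum.inl (j, a)))
  have hΘ : Continuous Θ :=
    Continuous.comp' (g := fun z : (Fin n → ℝ) × (Fin p → Fin n → ℝ) => prodH h z.1 z.2)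
      (f := fun S : Fin 1 → Fin (Fintype.card ((Fin p × Fin n) ⊕ Fin n)) → ℝ =>
        ((fun a => S 0 (E (Sum.inr a))), fun j a => Real.sqrt B * S 0 (E (Sum.inl (j, a)))))
      (continuous_prodH hh)
      ((continuous_pi fun a => continuous_apply_apply _ _).prodMk
        (continuous_pi fun j => continuous_pi fun a => (continuous_apply_apply _ _).const_mul _))
  obtain ⟨Φ, hΦc, hΦ⟩ := exists_gramFun hΘ (K := 1) fun S => abs_prodH_le hb _ _
  let blk : (Fin n → Fin n → ℝ) × (Fin n → Fin n → ℝ) →
      (Fin p × Fin n) ⊕ Fin n → (Fin p × Fin n) ⊕ Fin n → ℝ := fun R =>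
    Sum.elim (fun ja => Sum.elim (fun jb => if ja.1 = jb.1 then R.1 ja.2 jb.2 / B else 0) fun _ => 0)
      fun a => Sum.elim (fun _ => 0) fun b => R.2 a b
  refine ⟨fun R => Φ fun i i' => blk R (E.symm i) (E.symm i'), ?_, ?_⟩
  · refine hΦc.comp (continuous_pi fun i => continuous_pi fun i' => ?_)
    rcases E.symm i with ⟨j, a⟩ | a <;> rcases E.symm i' with ⟨j', b⟩ | b <;> simp only [blk,
      Sum.elim_inl, Sum.elim_inr]
    · split_ifs
      · exact ((continuous_apply_apply a b).comp continuous_fst).div_const _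
      · exact continuous_const
    · exact continuous_const
    · exact continuous_const
    · exact (continuous_apply_apply a b).comp continuous_snd
  intro ι κ _ _ v u hv hu
  have hsB : Real.sqrt B ≠ 0 := (Real.sqrt_pos.2 hB).ne'
  let w' : (Fin p × Fin n) ⊕ Fin n → (Fin p × ι) ⊕ κ → ℝ :=
    Sum.elim (fun ja => Sum.elim (fun q => if q.1 = ja.1 then v ja.2 q.2 / Real.sqrt B else 0) 0)
      fun a => Sum.elim 0 (u a)
  let w := fun i => w' (E.symm i)
  have hgram : ∀ z z', dot (w' z) (w' z') = blk (gramOf v, gramOf u) z z' := by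
    rintro (⟨j, a⟩ | a) (⟨j', b⟩ | b) <;>
      simp only [dot, w', blk, Fintype.sum_sum_type, Sum.elim_inl, Sum.elim_inr, Pi.zero_apply,
        mul_zero, zero_mul, Finset.sum_const_zero, add_zero, zero_add, gramOf]
    rw [Fintype.sum_prod_type]
    by_cases hjj : j = j'
    · subst hjj
      rw [if_pos rfl, Finset.sum_eq_single j (fun x _ hx => by simp [hx]) (by simp), Finset.sum_div]
      simp only [↓reduceIte, div_mul_div_comm, Real.mul_self_sqrt hB.le]
    · rw [if_neg hjj]
      refine Finset.sum_eq_zero fun x _ => Finset.sum_eq_zero fun i _ => ?_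
      by_cases hx : x = j
      · rw [if_pos hx, if_neg (show ¬x = j' from hx ▸ hjj), mul_zero]
      · rw [if_neg hx, zero_mul]
  have hg : gramOf w = fun i i' => blk (gramOf v, gramOf u) (E.symm i) (E.symm i') :=
    funext fun i => funext fun i' => hgram _ _
  have hnorm : ∀ i, dot (w i) (w i) ≤ 1 := by
    intro i
    refine (hgram (E.symm i) (E.symm i)).trans_le ?_
    rcases E.symm i with ⟨j, a⟩ | a <;> simp only [blk, Sum.elim_inl, Sum.elim_inr, ↓reduceIte]
    · exact div_le_one_of_le₀ (hv a) hB.le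
    · exact hu a
  show Φ _ = _
  rw [← hg, hΦ w hnorm, pairVal_eq_prod hh hb v u]
  have hmp : MeasurePreserving
      (fun g : Fin 1 → (Fin p × ι) ⊕ κ → ℝ =>
        ((fun j i => g 0 (Sum.inl (j, i))), fun k => g 0 (Sum.inr k)))
      (Measure.pi fun _ : Fin 1 => gam ((Fin p × ι) ⊕ κ))
      ((Measure.pi fun _ : Fin p => gam ι).prod (gam κ)) :=
    (((mp_curry (ι := Fin p) (κ := ι) (gaussianReal 0 1)).prod (MeasurePreserving.id (gam κ))).comp
      (measurePreserving_sumPiEquivProdPi fun _ : (Fin p × ι) ⊕ κ => gaussianReal 0 1)).comp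
      (measurePreserving_eval (fun _ : Fin 1 => gam ((Fin p × ι) ⊕ κ)) 0)
  have hc : Continuous fun z : (Fin p → ι → ℝ) × (κ → ℝ) =>
      prodH h (forms u z.2) (fun j => forms v (z.1 j)) :=
    (continuous_prodH hh).comp (((continuous_forms u).comp continuous_snd).prodMk
      (continuous_pi fun j => (continuous_forms v).comp ((continuous_apply j).comp continuous_fst)))
  rw [← integral_mp hmp hc.measurable]
  refine integral_congr_ae (Eventually.of_forall fun g => ?_)
  show prodH h _ _ = prodH h _ _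
  congr 1
  · funext a
    simp [forms, dot, w, w', Fintype.sum_sum_type]
  · funext j a
    simp only [forms, dot, w, w', Equiv.symm_apply_apply, Fintype.sum_sum_type, Sum.elim_inl,
      Sum.elim_inr, Pi.zero_apply, mul_zero, Finset.sum_const_zero, add_zero, Fintype.sum_prod_type]
    rw [Finset.sum_eq_single j (fun x _ hx => by simp [hx]) (by simp), Finset.mul_sum]
    refine Finset.sum_congr rfl fun i _ => ?_
    simp only [↓reduceIte]
    field_simp

/-- The fourth moment of a standard Gaussian. -/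
def mom4 : ℝ := ∫ y : Unit → ℝ, y () ^ 4 ∂gam Unit

lemma mom4_nonneg : 0 ≤ mom4 := integral_nonneg fun _ => by positivity

lemma integral_dot_pow_four {ι : Type} [Fintype ι] (u : ι → ℝ) :
    Integrable (fun g => dot g u ^ 4) (gam ι) ∧
      ∫ g, dot g u ^ 4 ∂gam ι = dot u u ^ 2 * mom4 := by
  let v : Fin 1 → ι → ℝ := fun _ => u
  let w : Fin 1 → Unit → ℝ := fun _ _ => Real.sqrt (dot u u)
  have h0 : 0 ≤ dot u u := Finset.sum_nonneg fun i _ => mul_self_nonneg _
  have hg : gramOf v = gramOf w := by
    funext a b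
    simp [gramOf, v, w, dot, Real.mul_self_sqrt (show 0 ≤ ∑ i, u i * u i from h0)]
  have hm : Measurable fun y : Fin 1 → ℝ => y 0 ^ 4 := by fun_prop
  have hi : Integrable (fun y : Unit → ℝ => (y () * Real.sqrt (dot u u)) ^ 4) (gam Unit) := by
    have h1 := ((IsGaussian.memLp_id (gaussianReal 0 1) (p := 4) (by norm_num)).integrable_norm_pow
      (p := 4) (by norm_num))
    have h2 := (measurePreserving_eval (fun _ : Unit => gaussianReal 0 1) ()).integrable_comp_of_integrable h1
    refine (h2.const_mul (Real.sqrt (dot u u) ^ 4)).congr (Eventually.of_forall fun y => ?_)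
    simp [mul_pow, Even.pow_abs (show Even 4 by decide), mul_comm]
  have e : ∀ y, forms w y 0 ^ 4 = (y () * Real.sqrt (dot u u)) ^ 4 := fun y => by
    simp [forms, w, dot]
  constructor
  · refine Integrable.comp_measurable (g := fun y : Fin 1 → ℝ => y 0 ^ 4) (f := forms v) ?_
      (continuous_forms v).measurable
    rw [map_forms_eq v w hg, integrable_map_measure hm.aestronglyMeasurable
      (continuous_forms w).measurable.aemeasurable]
    exact hi.congr (Eventually.of_forall fun y => (e y).symm)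
  · rw [show (∫ g, dot g u ^ 4 ∂gam ι) = ∫ y, y 0 ^ 4 ∂(gam ι).map (forms v) from
        (integral_map (continuous_forms v).measurable.aemeasurable hm.aestronglyMeasurable).symm,
      map_forms_eq v w hg,
      integral_map (continuous_forms w).measurable.aemeasurable hm.aestronglyMeasurable]
    simp only [e, mul_pow, integral_mul_const]
    rw [mom4, show Real.sqrt (dot u u) ^ 4 = (Real.sqrt (dot u u) ^ 2) ^ 2 by ring,
      Real.sq_sqrt h0, mul_comm]

end Vale.Agent.P166.Haar2.Fresh
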