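import Vale.Agent.P166.Haar2.Fresh.System

/-!
The mean logarithm on a perturbed system: as a series of replica moments, and insensitive to a
small constant in the weight, uniformly in the system.
-/

noncomputable section

open MeasureTheory ProbabilityTheory Filter Finset
open scoped BigOperators Topology

namespace Vale.Agent.P166.Haar2.Fresh

open Vale.Agent.P157 (gam dot integral_dot_sq)
open Vale.Agent.P157.Parisi (Cube)
open Vale.Agent.P157.Parisi.Cont (forms expVal gq integrable_bdd one_sub_div_mem gq_mem)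
open Vale.Agent.P168.Limit (gw gav rav rav_eq_prod abs_rav_le gw_nonneg sum_gw gav_mono gav_add
  gav_sub gav_const gav_const_mul abs_gav_le_of_le gw_le_one)

variable {K N G L k p : ℕ}

/-- The coordinates and the test field of one configuration. -/
def fvec (c : Fin (K + 1) → Fin N) (g : TIdx N k → ℝ) (U : OG N) (σ : Cube N) :
    Fin (K + 1) ⊕ Fin 1 → ℝ :=
  Sum.elim (fun j => rot U σ (c j)) fun _ => testZ g σ

lemma continuous_testZ (σ : Cube N) : Continuous fun g : TIdx N k → ℝ => testZ g σ := by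
  unfold testZ; fun_prop

lemma continuous_fvec (c : Fin (K + 1) → Fin N) (σ : Cube N) :
    Continuous fun q : (TIdx N k → ℝ) × OG N => fvec c q.1 q.2 σ := by
  refine continuous_pi fun d => ?_
  rcases d with j | _
  · exact ((continuous_apply (c j)).comp (continuous_act (spin σ))).comp continuous_snd
  · exact (continuous_testZ σ).comp continuous_fst

lemma rav_pow {X : Type*} [Fintype X] [Inhabited X] (n : ℕ) (H f : X → ℝ) :
    rav n H (fun σ => ∏ l, f (σ l)) = gav H f ^ n := by
  rw [rav_eq_prod n H fun _ => f, Finset.prod_const, Finset.card_univ, Fintype.card_fin]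

lemma measurable_gav_fvec (P : Sys N G) (s : ℝ) (x : Fin L → ℝ) (B : RBase N)
    (c : Fin (K + 1) → Fin N) {X : (Fin (K + 1) ⊕ Fin 1 → ℝ) → ℝ} (hX : Continuous X) :
    Measurable fun q : (TIdx N k → ℝ) × Dz G L B =>
      gav (P.ham s x B q.2) (fun σ => X (fvec c q.1 q.2.1 σ)) :=
  Finset.measurable_sum _ fun σ _ => ((GG.measurable_gw P s x B σ).comp measurable_snd).mul
    ((hX.comp (continuous_fvec c σ)).measurable.comp
      (measurable_fst.prodMk (measurable_fst.comp measurable_snd)))

/-- The mean logarithm of a bounded weight as a series of replica moments. -/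
theorem sys_series (P : Sys N G) (s : ℝ) (x : Fin L → ℝ) (B : RBase N) (c : Fin (K + 1) → Fin N)
    {W : (Fin (K + 1) ⊕ Fin 1 → ℝ) → ℝ} (hWc : Continuous W) {Cw : ℝ} (hC : 1 ≤ Cw)
    (hW : ∀ z, Cw⁻¹ ≤ W z ∧ W z ≤ Cw) (D : ℕ) :
    |P.freshLog s x B k c W - (Real.log Cw - ∑ d ∈ range D,
        (∫ q : (TIdx N k → ℝ) × Dz G L B, rav (d + 1) (P.ham s x B q.2)
          (fun σ => prodH (fun z => 1 - W z / Cw) (fun i => testZ q.1 (σ i))
            fun j i => rot q.2.1 (σ i) (c j))
          ∂(gam (TIdx N k)).prod (dzLaw G L B)) / (d + 1))| ≤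
      gq Cw ^ (D + 1) / (1 - gq Cw) := by
  set μ := (gam (TIdx N k)).prod (dzLaw G L B)
  have hC0 : 0 < Cw := by linarith
  set Z : (TIdx N k → ℝ) × Dz G L B → ℝ := fun q =>
    gav (P.ham s x B q.2) (fun σ => W (fvec c q.1 q.2.1 σ)) with hZ
  have hZm : Measurable Z := measurable_gav_fvec P s x B c hWc
  have hZb : ∀ q, Cw⁻¹ ≤ Z q ∧ Z q ≤ Cw := fun q =>
    ⟨(gav_const (P.ham s x B q.2) Cw⁻¹).symm.trans_le (gav_mono _ fun σ => (hW _).1),
      (gav_mono _ fun σ => (hW _).2).trans_eq (gav_const _ Cw)⟩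
  have hu : ∀ (d : ℕ) q, rav (d + 1) (P.ham s x B q.2)
      (fun σ => prodH (fun z => 1 - W z / Cw) (fun i => testZ q.1 (σ i))
        fun j i => rot q.2.1 (σ i) (c j)) = (1 - Z q / Cw) ^ (d + 1) := fun d q => by
    refine (rav_pow (d + 1) _ fun σ => 1 - W (fvec c q.1 q.2.1 σ) / Cw).trans ?_
    congr 1
    simp only [hZ, gav, mul_sub, mul_one, Finset.sum_sub_distrib, sum_gw, Finset.sum_div,
      mul_div_assoc]
  simp only [hu]
  have hi : Integrable (fun q => Real.log (Z q)) μ :=
    integrable_bdd hZm.log (K := |Real.log Cw|) fun q =>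
      Vale.Agent.P168.Cascade.abs_log_le hC0 (hZb q).1 (hZb q).2
  have hid : ∀ d : ℕ, Integrable (fun q => (1 - Z q / Cw) ^ (d + 1) / ((d : ℝ) + 1)) μ := fun d =>
    (integrable_bdd ((measurable_const.sub (hZm.div_const _)).pow_const (d + 1)) (K := 1)
      fun q => by
        obtain ⟨h1, h2⟩ := one_sub_div_mem hC (hZb q).1 (hZb q).2
        show |(1 - Z q / Cw) ^ (d + 1)| ≤ 1
        rw [abs_pow, abs_of_nonneg h1]
        exact pow_le_one₀ h1 (h2.trans (gq_mem hC).2.le)).div_const _
  have hlog : P.freshLog s x B k c W = ∫ q, Real.log (Z q) ∂μ := (integral_prod _ hi).symm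
  have hc : Integrable (fun _ => Real.log Cw) μ := integrable_const _
  have e : Real.log Cw = ∫ _q, Real.log Cw ∂μ := by simp
  simp only [hlog, ← integral_div]
  rw [← integral_finsetSum _ fun d _ => hid d, e,
    ← integral_sub hc (integrable_finsetSum _ fun d _ => hid d),
    ← integral_sub hi (g := fun q => Real.log Cw - ∑ d ∈ range D,
      (1 - Z q / Cw) ^ (d + 1) / ((d : ℝ) + 1))
      (hc.sub (integrable_finsetSum _ fun d _ => hid d)), ← Real.norm_eq_abs]
  refine (norm_integral_le_of_norm_le_const (C := gq Cw ^ (D + 1) / (1 - gq Cw))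
    (Eventually.of_forall fun q => ?_)).trans_eq (by rw [probReal_univ, mul_one])
  obtain ⟨hu0, hu1⟩ := one_sub_div_mem hC (hZb q).1 (hZb q).2
  have hz : 0 < Z q := (inv_pos.2 hC0).trans_le (hZb q).1
  have hq1 : gq Cw < 1 := (gq_mem hC).2
  rw [Real.norm_eq_abs]
  set u := 1 - Z q / Cw with hu'
  have habs : |u| = u := abs_of_nonneg hu0
  have hl : Real.log (Z q) = Real.log Cw + Real.log (1 - u) := by
    rw [hu', sub_sub_cancel, Real.log_div hz.ne' hC0.ne']
    ring
  rw [hl]
  refine le_trans (le_of_eq ?_)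
    ((Real.abs_log_sub_add_sum_range_le (x := u) (by rw [habs]; linarith) D).trans ?_)
  · congr 1
    ring
  · rw [habs]
    exact div_le_div₀ (pow_nonneg (gq_mem hC).1 _) (pow_le_pow_left₀ hu0 hu1 _) (by linarith)
      (by linarith)

/-- The exponent at the top coordinates alone. -/
def yX (C : ℝ) (x : Fin p → ℝ) : ℝ := C * (1 + ∑ j, x j ^ 2)

lemma max_sub_le_sq {y R : ℝ} (hR : 0 < R) : max (y - R) 0 ≤ y ^ 2 / R := by
  refine max_le ?_ (by positivity)
  rw [le_div_iff₀ hR]
  nlinarith [sq_nonneg (y - R)]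

lemma yX_nonneg {C : ℝ} (hC : 0 < C) (x : Fin p → ℝ) : 0 ≤ yX C x :=
  mul_nonneg hC.le (add_nonneg zero_le_one (Finset.sum_nonneg fun j _ => sq_nonneg _))

lemma max_sub_eq {R : ℝ} (hR : 0 < R) (y : ℝ) : max (y - R) 0 = y - R * min (y / R) 1 := by
  rcases le_total y R with h | h
  · rw [max_eq_right (by linarith), min_eq_left ((div_le_one hR).2 h)]; field_simp; ring
  · rw [max_eq_left (by linarith), min_eq_right ((one_le_div hR).2 h)]; ring

section GaussTail

variable {M : ℕ} (w : Fin M → ℝ)

lemma measurable_dot_left : Measurable fun y : Fin M → ℝ => dot y w := by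
  unfold dot; fun_prop

lemma gauss_coord (p : ℕ) (j : Fin p) :
    (Integrable (fun g : Fin p → Fin M → ℝ => dot (g j) w ^ 4) (Measure.pi fun _ => gam (Fin M)) ∧
      ∫ g : Fin p → Fin M → ℝ, dot (g j) w ^ 4 ∂(Measure.pi fun _ => gam (Fin M)) =
        dot w w ^ 2 * mom4) ∧
    (Integrable (fun g : Fin p → Fin M → ℝ => dot (g j) w ^ 2) (Measure.pi fun _ => gam (Fin M)) ∧
      ∫ g : Fin p → Fin M → ℝ, dot (g j) w ^ 2 ∂(Measure.pi fun _ => gam (Fin M)) = dot w w) := by
  set ν := Measure.pi fun _ : Fin p => gam (Fin M)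
  have hev : MeasurePreserving (fun g : Fin p → Fin M → ℝ => g j) ν (gam (Fin M)) :=
    measurePreserving_eval _ j
  have hd : Measurable fun g : Fin p → Fin M → ℝ => dot (g j) w :=
    (measurable_dot_left w).comp hev.measurable
  obtain ⟨h1, h2⟩ := integral_dot_pow_four w
  have hi : Integrable (fun g : Fin p → Fin M → ℝ => dot (g j) w ^ 4) ν :=
    hev.integrable_comp_of_integrable (g := fun y => dot y w ^ 4) h1
  refine ⟨⟨hi, ?_⟩, ?_, ?_⟩
  · rw [← h2]
    exact Vale.Agent.P168.Upper.integral_mp hev (g := fun y => dot y w ^ 4)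
      ((measurable_dot_left w).pow_const 4)
  · refine (hi.add (integrable_const 1)).mono' (hd.pow_const 2).aestronglyMeasurable
      (Eventually.of_forall fun g => ?_)
    rw [Real.norm_eq_abs, abs_of_nonneg (sq_nonneg _)]
    show _ ≤ dot (g j) w ^ 4 + 1
    nlinarith [sq_nonneg (dot (g j) w ^ 2 - 1)]
  · rw [Vale.Agent.P168.Upper.integral_mp hev (g := fun y => dot y w ^ 2)
      ((measurable_dot_left w).pow_const 2), integral_dot_sq]
    simp [dot, sq]

/-- The exponent at a Gaussian vector: its mean and its part above `R`. -/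
lemma gauss_tail (p : ℕ) {C R Bd : ℝ} (hC : 0 < C) (hR : 0 < R) (hw : dot w w ≤ Bd) :
    C * (1 + p * dot w w) - R * ∫ g : Fin p → Fin M → ℝ,
        min (yX C (fun j => dot (g j) w) / R) 1 ∂(Measure.pi fun _ => gam (Fin M)) ≤
      C ^ 2 * (2 + 2 * p * (p * (Bd ^ 2 * mom4))) / R := by
  set ν := Measure.pi fun _ : Fin p => gam (Fin M)
  have hun : 0 ≤ dot w w := Finset.sum_nonneg fun i _ => mul_self_nonneg _
  have hS2 : Integrable (fun g : Fin p → Fin M → ℝ => ∑ j, dot (g j) w ^ 2) ν :=
    integrable_finsetSum _ fun j _ => (gauss_coord w p j).2.1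
  have hS4 : Integrable (fun g : Fin p → Fin M → ℝ => ∑ j, dot (g j) w ^ 4) ν :=
    integrable_finsetSum _ fun j _ => (gauss_coord w p j).1.1
  set yG : (Fin p → Fin M → ℝ) → ℝ := fun g => yX C fun j => dot (g j) w with hyG
  have hiy : Integrable yG ν := ((integrable_const 1).add hS2).const_mul C
  have hm : ∫ g, yG g ∂ν = C * (1 + p * dot w w) := by
    simp only [hyG, yX]
    rw [integral_const_mul, integral_add (integrable_const 1) hS2,
      integral_finsetSum _ fun j _ => (gauss_coord w p j).2.1]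
    simp only [(gauss_coord w p _).2.2, integral_const, probReal_univ, one_smul, Finset.sum_const,
      Finset.card_univ, Fintype.card_fin, nsmul_eq_mul]
  have hymeas : Measurable yG := measurable_const.mul (measurable_const.add
    (Finset.measurable_sum _ fun j _ =>
      ((measurable_dot_left w).comp (measurable_pi_apply j)).pow_const 2))
  have hmG : Integrable (fun g => R * min (yG g / R) 1) ν :=
    (integrable_bdd ((hymeas.div_const R).min measurable_const) (K := 1) fun g => by
      rw [abs_of_nonneg (le_min (div_nonneg (yX_nonneg hC _) hR.le) zero_le_one)]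
      exact min_le_right _ _).const_mul R
  have hub : Integrable (fun g : Fin p → Fin M → ℝ =>
      C ^ 2 * (2 + 2 * p * ∑ j, dot (g j) w ^ 4) / R) ν :=
    (((integrable_const (2 : ℝ)).add (hS4.const_mul (2 * (p : ℝ)))).const_mul (C ^ 2)).div_const R
  have hd : Integrable (fun g => yG g - R * min (yG g / R) 1) ν := hiy.sub hmG
  rw [← hm, ← integral_const_mul, ← integral_sub hiy hmG]
  refine (integral_mono hd hub fun g => ?_).trans ?_
  · show yG g - R * min (yG g / R) 1 ≤ _
    have h1 := max_sub_le_sq (y := yG g) hR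
    rw [max_sub_eq hR (yG g)] at h1
    refine h1.trans (div_le_div_of_nonneg_right ?_ hR.le)
    simp only [hyG, yX, mul_pow]
    refine mul_le_mul_of_nonneg_left ?_ (sq_nonneg C)
    have h := sq_sum_le_card_mul_sum_sq (s := (Finset.univ : Finset (Fin p)))
      (f := fun j => dot (g j) w ^ 2)
    simp only [Finset.card_univ, Fintype.card_fin, ← pow_mul] at h
    nlinarith [sq_nonneg (1 - ∑ j, dot (g j) w ^ 2)]
  · rw [integral_div, integral_const_mul,
      integral_add (integrable_const (2 : ℝ)) (hS4.const_mul (2 * (p : ℝ))),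
      integral_const_mul, integral_finsetSum _ fun j _ => (gauss_coord w p j).1.1]
    simp only [(gauss_coord w p _).1.2, integral_const, probReal_univ, one_smul, Finset.sum_const,
      Finset.card_univ, Fintype.card_fin, nsmul_eq_mul]
    refine div_le_div_of_nonneg_right (mul_le_mul_of_nonneg_left (add_le_add_right
      (mul_le_mul_of_nonneg_left ?_ (by positivity)) _) (sq_nonneg C)) hR.le
    exact mul_le_mul_of_nonneg_left
      (mul_le_mul_of_nonneg_right (pow_le_pow_left₀ hun hw 2) mom4_nonneg) (Nat.cast_nonneg p)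

end GaussTail

/-- The part above `R` of the exponent at a few rows of a Haar rotation. -/
lemma haar_tail (p : ℕ) {C : ℝ} (hC : 0 < C) (Bd : ℝ) {R : ℝ} (hR : 0 < R) :
    ∀ᶠ M : ℕ in atTop, ∀ c : Fin p → Fin M, Function.Injective c → ∀ v : Fin M → ℝ,
      dot v v ≤ Bd * M →
      ∫ V, max (yX C (fun j => act V v (c j)) - R) 0 ∂orthHaar M ≤
        (C ^ 2 * (2 + 2 * p * (p * (Bd ^ 2 * mom4))) + 1) / R := by
  let Θ : Unit → (Fin p → Fin 1 → ℝ) → ℝ := fun _ x => min (yX C (fun j => x j 0) / R) 1
  have hΘc : Continuous (Function.uncurry Θ) := by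
    simp only [Θ, Function.uncurry_def, yX]
    fun_prop
  have hΘb : ∀ t x, |Θ t x| ≤ 1 := fun t x => by
    rw [abs_of_nonneg (le_min (div_nonneg (yX_nonneg hC _) hR.le) zero_le_one)]
    exact min_le_right _ _
  filter_upwards [haar_gauss p 1 hΘc hΘb Bd (show 0 < 1 / R ^ 2 by positivity),
    eventually_gt_atTop 0] with M hM hM0
  intro c hc v hv
  have hMr : (0 : ℝ) < M := Nat.cast_pos.2 hM0
  set w : Fin M → ℝ := fun i => v i / Real.sqrt M with hw
  have hu0 : dot w w = dot v v / M := by
    simp only [hw, dot, div_mul_div_comm, Real.mul_self_sqrt hMr.le, ← Finset.sum_div]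
  have hub : dot w w ≤ Bd := by rw [hu0, div_le_iff₀ hMr]; exact hv
  have h1 : (∫ g : Fin p → Fin M → ℝ,
      min (yX C (fun j => dot (g j) w) / R) 1 ∂(Measure.pi fun _ => gam (Fin M))) ≤
      (∫ V, min (yX C (fun j => act V v (c j)) / R) 1 ∂orthHaar M) + 1 / R ^ 2 := by
    have h := (abs_le.1 (hM c hc (fun _ => v) (fun _ => hv) ())).1
    have eG : expVal (Θ ()) (fun (_ : Fin 1) i => v i / Real.sqrt M) =
        ∫ g : Fin p → Fin M → ℝ, min (yX C (fun j => dot (g j) w) / R) 1
          ∂(Measure.pi fun _ => gam (Fin M)) := rfl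
    have eV : ∫ V, Θ () (fr V c fun _ : Fin 1 => v) ∂orthHaar M =
        ∫ V, min (yX C (fun j => act V v (c j)) / R) 1 ∂orthHaar M := rfl
    linarith
  have hG := gauss_tail w p hC hR hub
  have hyc : Continuous fun V : OG M => yX C fun j => act V v (c j) :=
    continuous_const.mul (continuous_const.add (continuous_finsetSum _ fun j _ =>
      ((continuous_apply (c j)).comp (continuous_act v)).pow 2))
  have hyVm : ∫ V, yX C (fun j => act V v (c j)) ∂orthHaar M = C * (1 + p * dot w w) := by
    have hcj : ∀ j, Continuous fun V : OG M => act V v (c j) ^ 2 := fun j =>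
      ((continuous_apply (c j)).comp (continuous_act v)).pow 2
    simp only [yX]
    rw [integral_const_mul, integral_add (integrable_const _)
      (integrable_finsetSum _ fun j _ => integrable_cont (hcj j)),
      integral_finsetSum _ fun j _ => integrable_cont (hcj j)]
    simp [integral_act_sq, hu0]
  have hmV : Integrable (fun V : OG M => R * min (yX C (fun j => act V v (c j)) / R) 1)
      (orthHaar M) :=
    integrable_cont (continuous_const.mul ((hyc.div_const R).min continuous_const))
  simp only [max_sub_eq hR]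
  rw [integral_sub (integrable_cont hyc) hmV, hyVm, integral_const_mul]
  have h2 := mul_le_mul_of_nonneg_left h1 hR.le
  rw [mul_add, show R * (1 / R ^ 2) = 1 / R by field_simp] at h2
  rw [add_div]
  linarith

/-- A small constant under the logarithm moves the system's mean logarithm little. -/
theorem sys_tail {X : (Fin (K + 1) ⊕ Fin 1 → ℝ) → ℝ} (hXc : Continuous X) {C : ℝ} (hC : 0 < C)
    (hX : ∀ z, Real.exp (-yC C z) ≤ X z ∧ X z ≤ C) (Bd : ℝ) {ε R : ℝ} (hε : 0 < ε) (hR : 0 < R) :
    ∃ M₀ : ℕ, ∀ (N L k : ℕ) (a : Fin (K + 1) → ℝ) (w : Fin N → Fin (K + 1)) (s : ℝ)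
      (x : Fin L → ℝ) (B : RBase N) (c : Fin (K + 1) → Fin N),
      0 < N → M₀ ≤ topN w → (N : ℝ) ≤ Bd * topN w → Function.Injective c →
      (∀ j, w (c j) = Fin.last K) →
      |(stdSys a w).freshLog s x B k c (fun z => X z + ε) - (stdSys a w).freshLog s x B k c X| ≤
        ε * Real.exp R + 2 * ((C ^ 2 * (2 + 2 * (K + 1 : ℕ) *
          ((K + 1 : ℕ) * (Bd ^ 2 * mom4))) + 1) + C ^ 2 * mom4) / R := by
  have hR2 : 0 < R / 2 := by linarith
  obtain ⟨M₀, hM₀⟩ := eventually_atTop.1 (haar_tail (K + 1) hC Bd hR2)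
  refine ⟨M₀, fun N L k a w s x B c hN hM hNB hc hw => ?_⟩
  obtain ⟨c', hc'i, hc'⟩ := exists_topIdx hc hw
  set P := stdSys a w with hP
  set ν := gam (TIdx N k)
  set μ := ν.prod (dzLaw (K + 2) L B) with hμ
  set f1 : OG N → Cube N → ℝ := fun U σ => max (yX C (fun j => rot U σ (c j)) - R / 2) 0 with hf1
  set f2 : (TIdx N k → ℝ) → Cube N → ℝ := fun g σ => C ^ 2 * testZ g σ ^ 4 / (R / 2) with hf2
  set q1 : (TIdx N k → ℝ) × Dz (K + 2) L B → ℝ := fun q => gav (P.ham s x B q.2) (f1 q.2.1) with hq1
  set q2 : (TIdx N k → ℝ) × Dz (K + 2) L B → ℝ := fun q => gav (P.ham s x B q.2) (f2 q.1) with hq2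
  have hy0 : ∀ z : Fin (K + 1) ⊕ Fin 1 → ℝ, 0 ≤ yC C z := fun z =>
    mul_nonneg hC.le (add_nonneg zero_le_one (Finset.sum_nonneg fun j _ => sq_nonneg _))
  have hsplit : ∀ g U σ, max (yC C (fvec c g U σ) - R) 0 ≤ f1 U σ + f2 g σ := by
    intro g U σ
    have h0 : 0 ≤ f1 U σ := le_max_right _ _
    have h2 : max (C * testZ g σ ^ 2 - R / 2) 0 ≤ f2 g σ := by
      refine (max_sub_le_sq hR2).trans (le_of_eq ?_)
      simp only [hf2]; ring
    have h3 : yC C (fvec c g U σ) = yX C (fun j => rot U σ (c j)) + C * testZ g σ ^ 2 := by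
      simp only [yC, yX, fvec, Fintype.sum_sum_type, Sum.elim_inl, Sum.elim_inr,
        Fin.sum_univ_one]
      ring
    refine max_le ?_ (add_nonneg h0 ((le_max_right _ _).trans h2))
    linarith [le_max_left (yX C (fun j => rot U σ (c j)) - R / 2) 0,
      (le_max_left _ _).trans h2, show f1 U σ = max (yX C (fun j => rot U σ (c j)) - R / 2) 0 from rfl]
  have hXb : ∀ z, 0 < X z := fun z => (Real.exp_pos _).trans_le (hX z).1
  set Z : (TIdx N k → ℝ) × Dz (K + 2) L B → ℝ := fun q =>
    gav (P.ham s x B q.2) (fun σ => X (fvec c q.1 q.2.1 σ)) with hZ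
  have hZe : ∀ q, gav (P.ham s x B q.2) (fun σ => X (fvec c q.1 q.2.1 σ) + ε) = Z q + ε := fun q => by
    rw [gav_add, gav_const]
  have hpt : ∀ q, 0 ≤ Real.log (Z q + ε) - Real.log (Z q) ∧
      Real.log (Z q + ε) - Real.log (Z q) ≤ ε * Real.exp R + (q1 q + q2 q) := by
    intro q
    set a' := gav (P.ham s x B q.2) (fun σ => yC C (fvec c q.1 q.2.1 σ)) with ha'
    have hjen : Real.exp (-a') ≤ Z q := by
      have h := gav_mono (P.ham s x B q.2) fun σ =>
        (exp_tangent a' (yC C (fvec c q.1 q.2.1 σ))).trans (hX _).1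
      rw [gav_add, gav_const, gav_const_mul] at h
      calc Real.exp (-a') = Real.exp (-a') * (1 + a') + -Real.exp (-a') * a' := by ring
        _ ≤ _ := h
    obtain ⟨h1, h2⟩ := log_add_sub_le hε.le hjen R
    refine ⟨h1, h2.trans (add_le_add_right (max_le ?_ ?_) _)⟩
    · calc a' - R = gav (P.ham s x B q.2) (fun σ => yC C (fvec c q.1 q.2.1 σ) - R) := by
            rw [gav_sub, gav_const]
        _ ≤ gav (P.ham s x B q.2) (fun σ => f1 q.2.1 σ + f2 q.1 σ) :=
            gav_mono _ fun σ => (le_max_left _ _).trans (hsplit _ _ σ)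
        _ = _ := gav_add _ _ _
    · calc (0 : ℝ) = gav (P.ham s x B q.2) fun _ => 0 := (gav_const _ 0).symm
        _ ≤ gav (P.ham s x B q.2) (fun σ => f1 q.2.1 σ + f2 q.1 σ) :=
            gav_mono _ fun σ => (le_max_right _ _).trans (hsplit _ _ σ)
        _ = _ := gav_add _ _ _
  have hcf1 : ∀ σ, Continuous fun U : OG N => f1 U σ := fun σ => by
    refine ((Continuous.sub ?_ continuous_const).max continuous_const)
    exact continuous_const.mul (continuous_const.add (continuous_finsetSum _ fun j _ =>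
      ((continuous_apply (c j)).comp (continuous_act (spin σ))).pow 2))
  choose B1 hB1 using fun σ => (isCompact_univ (X := OG N)).exists_bound_of_continuousOn
    (hcf1 σ).continuousOn
  have hm1 : Measurable q1 := Finset.measurable_sum _ fun σ _ =>
    ((GG.measurable_gw P s x B σ).comp measurable_snd).mul
      ((hcf1 σ).measurable.comp (measurable_fst.comp measurable_snd))
  have hi1 : Integrable q1 μ := integrable_bdd hm1 (K := ∑ σ, |B1 σ|) fun q =>
    abs_gav_le_of_le _ fun σ => ((hB1 σ q.2.1 (Set.mem_univ _)).trans (le_abs_self _)).trans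
      (Finset.single_le_sum (fun τ _ => abs_nonneg (B1 τ)) (Finset.mem_univ σ))
  have hi4 : ∀ σ : Cube N, Integrable (fun g => testZ g σ ^ 4) ν ∧
      ∫ g, testZ g σ ^ 4 ∂ν = mom4 := fun σ => by
    obtain ⟨h1, h2⟩ := integral_dot_pow_four (tVec k (fun _ : Fin 1 => σ) 0)
    rw [dot_tVec hN, one_pow, one_mul] at h2
    exact ⟨h1, h2⟩
  have hm2 : Measurable q2 := Finset.measurable_sum _ fun σ _ =>
    ((GG.measurable_gw P s x B σ).comp measurable_snd).mul
      (((((continuous_testZ σ).pow 4).measurable.comp measurable_fst).const_mul _).div_const _)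
  have hf20 : ∀ g σ, 0 ≤ f2 g σ := fun g σ => by simp only [hf2]; positivity
  have hi2 : Integrable q2 μ := by
    refine ((integrable_finsetSum Finset.univ fun σ _ =>
      (((hi4 σ).1.comp_fst (dzLaw (K + 2) L B)).const_mul (C ^ 2)).div_const (R / 2))).mono'
      hm2.aestronglyMeasurable (Eventually.of_forall fun q => ?_)
    rw [Real.norm_eq_abs, abs_of_nonneg (show 0 ≤ q2 q from Finset.sum_nonneg fun σ _ =>
      mul_nonneg (gw_nonneg _ σ) (hf20 _ σ))]
    exact Finset.sum_le_sum fun σ _ => mul_le_of_le_one_left (hf20 _ σ) (gw_le_one _ σ)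
  have hZm : Measurable Z := measurable_gav_fvec P s x B c hXc
  set Cw := max (C + ε) ε⁻¹
  have hCw : 0 < Cw := lt_max_of_lt_right (inv_pos.2 hε)
  have hiE : Integrable (fun q => Real.log (Z q + ε)) μ :=
    integrable_bdd (hZm.add measurable_const).log (K := |Real.log Cw|) fun q => by
      have h0 : 0 ≤ Z q := Finset.sum_nonneg fun σ _ => mul_nonneg (gw_nonneg _ σ) (hXb _).le
      have h1 : Z q ≤ C := (gav_mono _ fun σ => (hX _).2).trans_eq (gav_const _ C)
      exact Vale.Agent.P168.Cascade.abs_log_le hCw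
        (((inv_le_comm₀ hCw hε).2 (le_max_right _ _)).trans (by linarith))
        ((add_le_add h1 le_rfl).trans (le_max_left _ _))
  have hi0 : Integrable (fun q => Real.log (Z q)) μ := by
    refine (hiE.abs.add ((integrable_const (ε * Real.exp R)).add (hi1.add hi2))).mono'
      hZm.log.aestronglyMeasurable (Eventually.of_forall fun q => ?_)
    obtain ⟨h1, h2⟩ := hpt q
    simp only [Pi.add_apply, Real.norm_eq_abs, abs_le]
    constructor <;> linarith [abs_le.1 (le_refl |Real.log (Z q + ε)|), abs_nonneg (Real.log (Z q + ε)),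
      le_abs_self (Real.log (Z q + ε))]
  have hlog : P.freshLog s x B k c X = ∫ q, Real.log (Z q) ∂μ := (integral_prod _ hi0).symm
  have hlogE : P.freshLog s x B k c (fun z => X z + ε) = ∫ q, Real.log (Z q + ε) ∂μ := by
    rw [integral_prod _ hiE]
    refine integral_congr_ae (Eventually.of_forall fun g => integral_congr_ae
      (Eventually.of_forall fun z => ?_))
    exact congrArg Real.log (hZe (g, z))
  rw [hlog, hlogE, ← integral_sub hiE hi0,
    abs_of_nonneg (integral_nonneg fun q => (hpt q).1)]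
  refine (integral_mono (hiE.sub hi0) ((integrable_const _).add (hi1.add hi2))
    fun q => (hpt q).2).trans ?_
  simp only [Pi.add_apply]
  have hi12 : Integrable (fun q => q1 q + q2 q) μ := hi1.add hi2
  rw [integral_add (integrable_const _) hi12, integral_add hi1 hi2]
  simp only [integral_const, probReal_univ, one_smul]
  refine add_le_add_right ?_ _
  rw [mul_add, add_div]
  refine add_le_add ?_ ?_
  · have hswap : ∫ q, q1 q ∂μ = ∫ z, rav 1 (P.ham s x B z) (fun σ =>
        max (yX C (fun j => sub (topE w) z.1 σ 0 (c' j)) - R / 2) 0) ∂dzLaw (K + 2) L B := by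
      rw [integral_prod_symm _ hi1]
      refine integral_congr_ae (Eventually.of_forall fun z => ?_)
      simp only [hq1, hf1, integral_const, probReal_univ, one_smul]
      symm
      refine (Eq.trans ?_ ((rav_pow 1 (P.ham s x B z)
        (fun σ => max (yX C (fun j => rot z.1 σ (c j)) - R / 2) 0)).trans (pow_one _)))
      simp only [sub, hc', Fin.prod_univ_one]
    rw [hswap, block_avg P le_rfl (topE_injective w) (whole_top a w) (lam_top a w) s x B
      (fun (_ : Fin 1 → Cube N) y => max (yX C (fun j => y 0 (c' j)) - R / 2) 0)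
      (fun σ => ((Continuous.sub (continuous_const.mul (continuous_const.add
        (continuous_finsetSum _ fun j _ => ((continuous_apply_apply 0 (c' j))).pow 2)))
          continuous_const).max continuous_const))]
    have hpt1 : ∀ (z : Dz (K + 2) L B), |rav 1 (P.ham s x B z) (fun σ => ∫ V,
        max (yX C (fun j => act V (sub (topE w) z.1 σ 0) (c' j)) - R / 2) 0 ∂orthHaar (topN w))| ≤
        (C ^ 2 * (2 + 2 * (K + 1 : ℕ) * ((K + 1 : ℕ) * (Bd ^ 2 * mom4))) + 1) / (R / 2) := fun z =>
      abs_rav_le 1 _ _ fun σ => by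
        rw [abs_of_nonneg (integral_nonneg fun V => le_max_right _ _)]
        exact hM₀ (topN w) hM c' hc'i _ ((dot_sub_le w z.1 σ 0).trans hNB)
    refine (le_abs_self _).trans ((Real.norm_eq_abs _).symm.trans_le
      ((norm_integral_le_of_norm_le_const (Eventually.of_forall hpt1)).trans_eq ?_))
    rw [probReal_univ, mul_one]
    ring
  · rw [integral_prod_symm _ hi2]
    have e : ∀ z : Dz (K + 2) L B, ∫ g, q2 (g, z) ∂ν = 2 * (C ^ 2 * mom4) / R := fun z => by
      simp only [hq2, gav, hf2]
      rw [integral_finsetSum _ fun σ _ => ((((hi4 σ).1).const_mul _).div_const _).const_mul _]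
      simp only [integral_const_mul, integral_div, (hi4 _).2, ← Finset.sum_mul, sum_gw]
      ring
    simp only [e, integral_const, probReal_univ, one_smul, le_refl]

end Vale.Agent.P166.Haar2.Fresh
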