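import Vale.Agent.P166.Haar2.Fresh.Block
import Vale.Agent.P166.Haar2.Fresh.Frame
import Vale.Agent.P166.Haar2.Fresh.CascTail
import Vale.Agent.P166.Haar2.Statements

/-!
Top coordinates and a test field on a perturbed system: replica moments as Gaussian expectations
in the overlaps, and the effect of a small constant in the weight.
-/

noncomputable section

open MeasureTheory ProbabilityTheory Filter Finset
open scoped BigOperators Topology

namespace Vale.Agent.P166.Haar2.Fresh

open Vale.Agent.P157 (gam dot integral_dot_sq)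
open Vale.Agent.P157.Parisi (Cube unitVec)
open Vale.Agent.P157.Parisi.Cont (gramOf forms expVal continuous_forms gq integrable_bdd)
open Vale.Agent.P168.Limit (gw gav rav abs_rav_le gw_nonneg sum_gw gav_mono gav_add gav_sub
  gav_const gav_const_mul)

variable {K N L k n : ℕ}

/-- The number of coordinates of the top block. -/
def topN (w : Fin N → Fin (K + 1)) : ℕ := (univ.filter fun i => w i = Fin.last K).card

/-- The coordinates of the top block, enumerated. -/
def topE (w : Fin N → Fin (K + 1)) : Fin (topN w) → Fin N :=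
  fun l => (univ.filter fun i => w i = Fin.last K).orderEmbOfFin rfl l

lemma topE_injective (w : Fin N → Fin (K + 1)) : Function.Injective (topE w) :=
  (Finset.orderEmbOfFin _ rfl).injective

lemma topE_mem (w : Fin N → Fin (K + 1)) (l : Fin (topN w)) : w (topE w l) = Fin.last K :=
  (Finset.mem_filter.1 (Finset.orderEmbOfFin_mem (univ.filter fun i => w i = Fin.last K) rfl l)).2

lemma exists_topIdx {w : Fin N → Fin (K + 1)} {c : Fin (K + 1) → Fin N} (hc : Function.Injective c)
    (hw : ∀ j, w (c j) = Fin.last K) :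
    ∃ c' : Fin (K + 1) → Fin (topN w), Function.Injective c' ∧ ∀ j, topE w (c' j) = c j := by
  have h : ∀ j, ∃ l, topE w l = c j := fun j => by
    have hm : c j ∈ Set.range ((univ.filter fun i => w i = Fin.last K).orderEmbOfFin rfl) := by
      rw [Finset.range_orderEmbOfFin]
      simp [hw j]
    exact hm
  choose c' hc' using h
  exact ⟨c', fun i j hij => hc (by rw [← hc', hij, hc']), hc'⟩

lemma whole_top (a : Fin (K + 1) → ℝ) (w : Fin N → Fin (K + 1)) :
    Whole (stdSys a w) (topE w) := by
  intro g
  cases g using Fin.cases with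
  | zero => exact Or.inl fun l => by simp [stdSys]
  | succ i =>
    by_cases hi : i = Fin.last K
    · exact Or.inl fun l => by simp [stdSys, hi, topE_mem]
    · exact Or.inr fun l => by simp [stdSys, topE_mem, Ne.symm hi]

lemma lam_top (a : Fin (K + 1) → ℝ) (w : Fin N → Fin (K + 1)) (l : Fin (topN w)) :
    (stdSys a w).lam (topE w l) = a (Fin.last K) := by
  simp [stdSys, topE_mem]

/-- The top coordinates of replicas, scaled. -/
def topVec (w : Fin N → Fin (K + 1)) (U : OG N) (σ : Fin n → Cube N) :
    Fin n → Fin (topN w) → ℝ :=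
  fun a l => sub (topE w) U σ a l / Real.sqrt (topN w)

/-- The vectors of the test fields. -/
def tVec (k : ℕ) (σ : Fin n → Cube N) (a : Fin n) : TIdx N k → ℝ :=
  fun t => ∏ l, unitVec (σ a) (t l)

lemma testZ_eq (g : TIdx N k → ℝ) (σ : Fin n → Cube N) (a : Fin n) :
    testZ g (σ a) = forms (tVec k σ) g a := rfl

lemma gram_tVec (a : Fin (K + 1) → ℝ) (w : Fin N → Fin (K + 1)) (U : OG N)
    (σ : Fin n → Cube N) :
    gramOf (tVec k σ) = fun i j => (stdSys a w).ovs U σ 0 i j ^ k := by
  funext i j
  have e : (stdSys a w).ovs U σ 0 i j = ∑ l, unitVec (σ i) l * unitVec (σ j) l := by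
    have h : ∑ l, rot U (σ i) l * rot U (σ j) l = ∑ l, spin (σ i) l * spin (σ j) l :=
      act_dot U (spin (σ i)) (spin (σ j))
    simp only [Sys.ovs, Sys.ov, stdSys, Fin.cons_zero]
    rw [h, Finset.sum_div]
    refine Finset.sum_congr rfl fun l _ => ?_
    simp only [unitVec, div_mul_div_comm, Real.mul_self_sqrt (Nat.cast_nonneg N)]
    rfl
  rw [e, Fintype.sum_pow]
  exact Finset.sum_congr rfl fun t _ => Finset.prod_mul_distrib.symm

lemma dot_tVec (hN : 0 < N) (σ : Fin n → Cube N) (a : Fin n) :
    dot (tVec k σ a) (tVec k σ a) = 1 := by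
  have h1 : ∀ l, unitVec (σ a) l * unitVec (σ a) l = 1 / (N : ℝ) := fun l => by
    simp only [unitVec, div_mul_div_comm, Real.mul_self_sqrt (Nat.cast_nonneg N)]
    congr 1
    unfold Vale.Agent.P157.Parisi.sv
    split_ifs <;> norm_num
  simp only [dot, tVec, ← Finset.prod_mul_distrib, h1, Finset.prod_const, Finset.card_univ,
    Fintype.card_fin, Finset.sum_const, nsmul_eq_mul, Fintype.card_fun, Nat.cast_pow]
  rw [← mul_pow, mul_one_div, div_self (Nat.cast_ne_zero.2 hN.ne'), one_pow]

lemma gram_topVec (a : Fin (K + 1) → ℝ) (w : Fin N → Fin (K + 1)) (U : OG N)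
    (σ : Fin n → Cube N) :
    gramOf (topVec w U σ) =
      fun i j => (N : ℝ) / topN w * (stdSys a w).ovs U σ (Fin.last K).succ i j := by
  funext i j
  rcases Nat.eq_zero_or_pos N with rfl | hN
  · have : topN w = 0 := Finset.card_eq_zero.2 (Finset.eq_empty_of_forall_notMem fun i => i.elim0)
    simp only [gramOf, dot, topVec, this, Nat.cast_zero, Real.sqrt_zero, div_zero, mul_zero,
      Finset.sum_const_zero, zero_mul]
  simp only [gramOf, dot, topVec, sub, div_mul_div_comm, Real.mul_self_sqrt (Nat.cast_nonneg _),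
    Sys.ovs, Sys.ov, stdSys, Fin.cons_succ, ← Finset.sum_div]
  have e : ∑ i_1 ∈ univ.filter (fun l => w l = Fin.last K), rot U (σ i) i_1 * rot U (σ j) i_1 =
      ∑ l, rot U (σ i) (topE w l) * rot U (σ j) (topE w l) := by
    conv_lhs => rw [← Finset.map_orderEmbOfFin_univ (univ.filter fun l => w l = Fin.last K) rfl]
    rw [Finset.sum_map]
    rfl
  rw [e]
  have hNr : (N : ℝ) ≠ 0 := Nat.cast_ne_zero.2 hN.ne'
  field_simp

lemma dot_sub_le (w : Fin N → Fin (K + 1)) (U : OG N) (σ : Fin n → Cube N) (a : Fin n) :
    dot (sub (topE w) U σ a) (sub (topE w) U σ a) ≤ N := by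
  have h : ∑ l, rot U (σ a) l ^ 2 = N := GG.sum_rot_sq U (σ a)
  rw [← h, sum_split (topE_injective w) (fun l => rot U (σ a) l ^ 2)]
  simp only [dot, sub, sq]
  exact le_add_of_nonneg_right (Finset.sum_nonneg fun l _ => mul_self_nonneg _)

lemma dot_topVec_le {Bd : ℝ} (w : Fin N → Fin (K + 1)) (hM : 0 < topN w)
    (hB : (N : ℝ) ≤ Bd * topN w) (U : OG N) (σ : Fin n → Cube N) (a : Fin n) :
    dot (topVec w U σ a) (topVec w U σ a) ≤ Bd := by
  have hMr : (0 : ℝ) < topN w := Nat.cast_pos.2 hM
  simp only [dot, topVec, div_mul_div_comm, Real.mul_self_sqrt hMr.le, ← Finset.sum_div]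
  rw [div_le_iff₀ hMr]
  exact (dot_sub_le w U σ a).trans hB

/-- A replica moment of top coordinates and the test field is nearly a Gaussian expectation in
the overlaps. -/
theorem sys_term {h : (Fin (K + 1) ⊕ Fin 1 → ℝ) → ℝ} (hh : Continuous h) (hb : ∀ z, |h z| ≤ 1)
    (n : ℕ) (Bd : ℝ) {η : ℝ} (hη : 0 < η) :
    ∃ M₀ : ℕ, ∀ (N L k : ℕ) (a : Fin (K + 1) → ℝ) (w : Fin N → Fin (K + 1)) (s : ℝ)
      (x : Fin L → ℝ) (B : RBase N) (c : Fin (K + 1) → Fin N),
      0 < N → M₀ ≤ topN w → (N : ℝ) ≤ Bd * topN w → Function.Injective c →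
      (∀ j, w (c j) = Fin.last K) →
      |(∫ q : (TIdx N k → ℝ) × Dz (K + 2) L B, rav n ((stdSys a w).ham s x B q.2)
          (fun σ => prodH h (fun i => testZ q.1 (σ i)) fun j i => rot q.2.1 (σ i) (c j))
          ∂(gam (TIdx N k)).prod (dzLaw (K + 2) L B)) -
        ∫ z, rav n ((stdSys a w).ham s x B z)
          (fun σ => pairVal h (topVec w z.1 σ) (tVec k σ)) ∂dzLaw (K + 2) L B| ≤ η := by
  set Lb := Real.sqrt (4 * n / η) + 1 with hLb
  have hLb0 : 0 < Lb := by positivity
  have hLbb : 2 * (n : ℝ) / Lb ^ 2 ≤ η / 2 := by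
    have h1 : 4 * (n : ℝ) / η ≤ Lb ^ 2 := by
      have := Real.sq_sqrt (show 0 ≤ 4 * (n : ℝ) / η by positivity)
      nlinarith [Real.sqrt_nonneg (4 * (n : ℝ) / η)]
    rw [div_le_iff₀ hη] at h1
    rw [div_le_iff₀ (by positivity)]
    linarith
  let box : Set (Fin n → ℝ) := Set.univ.pi fun _ => Set.Icc (-Lb) Lb
  have hboxc : CompactSpace box :=
    isCompact_iff_compactSpace.1 (isCompact_univ_pi fun _ => isCompact_Icc)
  have hΘc : Continuous (Function.uncurry fun t : box => prodH (n := n) h t.1) :=
    (continuous_prodH hh).comp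
      ((continuous_subtype_val.comp continuous_fst).prodMk continuous_snd)
  obtain ⟨M₀, hM₀⟩ := eventually_atTop.1 (haar_gauss (K + 1) n hΘc
    (fun t x => abs_prodH_le hb _ _) Bd (show 0 < η / 2 by linarith))
  refine ⟨max M₀ 1, fun N L k a w s x B c hN hM hNB hc hw => ?_⟩
  have hM1 : 0 < topN w := lt_of_lt_of_le Nat.one_pos ((le_max_right _ _).trans hM)
  obtain ⟨c', hc'i, hc'⟩ := exists_topIdx hc hw
  set ν := gam (TIdx N k)
  set P := stdSys a w with hP
  -- inside: the test field first
  let Θ : (Fin n → Cube N) → (Fin n → Fin (topN w) → ℝ) → ℝ := fun σ y =>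
    ∫ g, prodH h (forms (tVec k σ) g) (fun j i => y i (c' j)) ∂ν
  have hcΘ : ∀ σ : Fin n → Cube N,
      Continuous fun q : (Fin n → Fin (topN w) → ℝ) × (TIdx N k → ℝ) =>
        prodH h (forms (tVec k σ) q.2) (fun j i => q.1 i (c' j)) := fun σ =>
    (continuous_prodH hh).comp (((continuous_forms _).comp continuous_snd).prodMk
      (continuous_pi fun j => continuous_pi fun i =>
        (continuous_apply_apply i (c' j)).comp continuous_fst))
  have hΘ : ∀ σ, Continuous (Θ σ) := fun σ => by
    refine continuous_of_dominated (bound := fun _ => 1) (fun y => ?_) (fun y => ?_)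
      (integrable_const _) (Eventually.of_forall fun g => ?_)
    · exact ((hcΘ σ).comp (continuous_const.prodMk continuous_id)).measurable.aestronglyMeasurable
    · exact Eventually.of_forall fun g => (Real.norm_eq_abs _).trans_le (abs_prodH_le hb _ _)
    · exact (hcΘ σ).comp (continuous_id.prodMk continuous_const)
  set J : (TIdx N k → ℝ) × Dz (K + 2) L B → ℝ := fun q => rav n (P.ham s x B q.2)
    fun σ => prodH h (fun i => testZ q.1 (σ i)) fun j i => rot q.2.1 (σ i) (c j) with hJ
  have hJm : Measurable J := by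
    refine Finset.measurable_sum _ fun σ _ => (Finset.measurable_prod _ fun l _ =>
      (GG.measurable_gw P s x B (σ l)).comp measurable_snd).mul ?_
    convert ((hcΘ σ).measurable.comp ((Measurable.prodMk
      ((continuous_sub (topE w) σ).measurable.comp (measurable_fst.comp measurable_snd))
      measurable_fst))) using 1
    funext q
    simp only [Function.comp_apply, sub, hc']
    rfl
  have hJi : Integrable J (ν.prod (dzLaw (K + 2) L B)) :=
    Integrable.of_bound hJm.aestronglyMeasurable 1
      (Eventually.of_forall fun q => abs_rav_le n _ _ fun σ => abs_prodH_le hb _ _)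
  have h1 : ∫ q, J q ∂ν.prod (dzLaw (K + 2) L B) =
      ∫ z, rav n (P.ham s x B z) (fun σ => Θ σ (sub (topE w) z.1 σ)) ∂dzLaw (K + 2) L B := by
    rw [integral_prod_symm _ hJi]
    refine integral_congr_ae (Eventually.of_forall fun z => ?_)
    simp only [hJ, rav, Θ]
    rw [integral_finsetSum _ fun σ _ => ?_]
    · refine Finset.sum_congr rfl fun σ _ => ?_
      rw [integral_const_mul]
      simp only [sub, hc']
      rfl
    · refine Integrable.const_mul (integrable_bdd (K := 1) ?_ fun g => abs_prodH_le hb _ _) _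
      convert (((hcΘ σ).comp ((continuous_const (y := sub (topE w) z.1 σ)).prodMk
        continuous_id)).measurable) using 1
      funext g
      simp only [Function.comp_apply, sub, hc']
      rfl
  rw [h1, block_avg P le_rfl (topE_injective w) (whole_top a w) (lam_top a w) s x B Θ hΘ]
  -- pointwise in the rotation
  have hpt : ∀ (U : OG N) (σ : Fin n → Cube N),
      |(∫ V, Θ σ (fun i => act V (sub (topE w) U σ i)) ∂orthHaar (topN w)) -
        pairVal h (topVec w U σ) (tVec k σ)| ≤ η := by
    intro U σ
    set v := sub (topE w) U σ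
    have hcq : Continuous fun q : OG (topN w) × (TIdx N k → ℝ) =>
        prodH h (forms (tVec k σ) q.2) (fr q.1 c' v) :=
      (hcΘ σ).comp ((continuous_pi fun i => (continuous_act (v i)).comp continuous_fst).prodMk
        continuous_snd)
    have hiq : Integrable (fun q : OG (topN w) × (TIdx N k → ℝ) =>
        prodH h (forms (tVec k σ) q.2) (fr q.1 c' v)) ((orthHaar (topN w)).prod ν) :=
      Integrable.of_bound hcq.measurable.aestronglyMeasurable 1
        (Eventually.of_forall fun q => abs_prodH_le hb _ _)
    have hswap : ∫ V, Θ σ (fun i => act V (v i)) ∂orthHaar (topN w) =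
        ∫ g, ∫ V, prodH h (forms (tVec k σ) g) (fr V c' v) ∂orthHaar (topN w) ∂ν :=
      integral_integral_swap hiq
    set u := fun (i : Fin n) l => v i l / Real.sqrt (topN w)
    have hce : Continuous fun q : (Fin (K + 1) → Fin (topN w) → ℝ) × (TIdx N k → ℝ) =>
        prodH h (forms (tVec k σ) q.2) (fun j => forms u (q.1 j)) :=
      (continuous_prodH hh).comp (((continuous_forms _).comp continuous_snd).prodMk
        (continuous_pi fun j => (continuous_forms u).comp
          ((continuous_apply j).comp continuous_fst)))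
    have hie : Integrable (fun g => expVal (prodH h (forms (tVec k σ) g)) u) ν :=
      (Integrable.of_bound hce.measurable.aestronglyMeasurable 1 (Eventually.of_forall fun q =>
        abs_prodH_le hb _ _) : Integrable _ ((Measure.pi fun _ : Fin (K + 1) =>
          gam (Fin (topN w))).prod ν)).integral_prod_right
    have hiV : Integrable (fun g =>
        ∫ V, prodH h (forms (tVec k σ) g) (fr V c' v) ∂orthHaar (topN w)) ν :=
      hiq.integral_prod_right
    have h2 : ∀ g, |(∫ V, prodH h (forms (tVec k σ) g) (fr V c' v) ∂orthHaar (topN w)) -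
        expVal (prodH h (forms (tVec k σ) g)) u| ≤
        η / 2 + 2 / Lb ^ 2 * ∑ i, dot g (tVec k σ i) ^ 2 := by
      intro g
      have hs0 : 0 ≤ ∑ i, dot g (tVec k σ i) ^ 2 := Finset.sum_nonneg fun i _ => sq_nonneg _
      by_cases hg : forms (tVec k σ) g ∈ box
      · have := hM₀ (topN w) ((le_max_left _ _).trans hM) c' hc'i v
          (fun i => (dot_sub_le w U σ i).trans hNB) ⟨_, hg⟩
        have : 0 ≤ 2 / Lb ^ 2 * ∑ i, dot g (tVec k σ i) ^ 2 := by positivity
        linarith
      · simp only [box, Set.mem_pi, Set.mem_univ, forall_true_left, not_forall, Set.mem_Icc,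
          ← abs_le] at hg
        obtain ⟨i, hi⟩ := hg
        have h3 : Lb ^ 2 ≤ ∑ i, dot g (tVec k σ i) ^ 2 := by
          refine le_trans ?_ (Finset.single_le_sum (fun i _ => sq_nonneg _) (Finset.mem_univ i))
          rw [← sq_abs (dot g (tVec k σ i))]
          exact pow_le_pow_left₀ hLb0.le (not_le.1 hi).le 2
        have h4 : 2 ≤ 2 / Lb ^ 2 * ∑ i, dot g (tVec k σ i) ^ 2 := by
          rw [div_mul_eq_mul_div, le_div_iff₀ (by positivity)]
          linarith
        have h5 := abs_integral_le_one (μ := orthHaar (topN w))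
          (f := fun V => prodH h (forms (tVec k σ) g) (fr V c' v)) fun V => abs_prodH_le hb _ _
        have h6 : |expVal (prodH h (forms (tVec k σ) g)) u| ≤ 1 :=
          abs_integral_le_one fun G => abs_prodH_le hb _ _
        have h7 := abs_sub (∫ V, prodH h (forms (tVec k σ) g) (fr V c' v) ∂orthHaar (topN w))
          (expVal (prodH h (forms (tVec k σ) g)) u)
        linarith
    have hd2 : ∀ i, Integrable (fun g => dot g (tVec k σ i) ^ 2) ν := fun i => by
      refine ((integral_dot_pow_four (tVec k σ i)).1.add (integrable_const 1)).mono'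
        (((Vale.Agent.P157.measurable_dot).comp
          (measurable_id.prodMk measurable_const)).pow_const 2).aestronglyMeasurable
        (Eventually.of_forall fun g => ?_)
      rw [Real.norm_eq_abs, abs_of_nonneg (sq_nonneg _)]
      show _ ≤ dot g (tVec k σ i) ^ 4 + 1
      nlinarith [sq_nonneg (dot g (tVec k σ i) ^ 2 - 1)]
    have hsum : ∫ g, ∑ i, dot g (tVec k σ i) ^ 2 ∂ν = n := by
      rw [integral_finsetSum _ fun i _ => hd2 i]
      have : ∀ i, ∫ g, dot g (tVec k σ i) ^ 2 ∂ν = 1 := fun i => by
        refine (integral_dot_sq (tVec k σ i)).trans ?_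
        simpa [dot, sq] using dot_tVec (k := k) hN σ i
      simp [this]
    rw [hswap, show pairVal h (topVec w U σ) (tVec k σ) =
      ∫ g, expVal (prodH h (forms (tVec k σ) g)) u ∂ν from rfl, ← integral_sub hiV hie]
    refine abs_integral_le_integral_abs.trans ((integral_mono ((hiV.sub hie).abs)
      ((integrable_const _).add ((integrable_finsetSum _ fun i _ => hd2 i).const_mul _)) h2).trans ?_)
    simp only [Pi.add_apply]
    rw [integral_add (integrable_const _) ((integrable_finsetSum _ fun i _ => hd2 i).const_mul _),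
      integral_const_mul, hsum]
    simp only [integral_const, probReal_univ, one_smul]
    rw [div_mul_eq_mul_div]
    linarith
  have hm1 : ∀ σ : Fin n → Cube N, Measurable fun U : OG N =>
      ∫ V, Θ σ (fun i => act V (sub (topE w) U σ i)) ∂orthHaar (topN w) := fun σ => by
    have hc1 : Continuous fun q : OG N × OG (topN w) =>
        Θ σ fun i => act q.2 (sub (topE w) q.1 σ i) :=
      (hΘ σ).comp (continuous_pi fun i => continuous_act₂.comp (continuous_snd.prodMk
        (((continuous_apply i).comp (continuous_sub (topE w) σ)).comp continuous_fst)))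
    exact hc1.measurable.stronglyMeasurable.integral_prod_right'.measurable
  have hm2 : ∀ σ : Fin n → Cube N, Measurable fun U : OG N =>
      pairVal h (topVec w U σ) (tVec k σ) := fun σ => by
    simp only [pairVal_eq_prod hh hb]
    have hc2 : Continuous fun q : OG N × ((Fin (K + 1) → Fin (topN w) → ℝ) × (TIdx N k → ℝ)) =>
        prodH h (forms (tVec k σ) q.2.2) (fun j => forms (topVec w q.1 σ) (q.2.1 j)) := by
      refine (continuous_prodH hh).comp (((continuous_forms _).comp
        (continuous_snd.comp continuous_snd)).prodMk (continuous_pi fun j => continuous_pi fun i => ?_))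
      show Continuous fun q : OG N × ((Fin (K + 1) → Fin (topN w) → ℝ) × (TIdx N k → ℝ)) =>
        ∑ l, q.2.1 j l * (sub (topE w) q.1 σ i l / Real.sqrt (topN w))
      exact continuous_finsetSum _ fun l _ =>
        ((continuous_apply_apply j l).comp (continuous_fst.comp continuous_snd)).mul
          ((((continuous_apply_apply i l).comp (continuous_sub (topE w) σ)).comp
            continuous_fst).div_const _)
    exact hc2.measurable.stronglyMeasurable.integral_prod_right'.measurable
  have hb1 : ∀ (U : OG N) (σ : Fin n → Cube N),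
      |∫ V, Θ σ (fun i => act V (sub (topE w) U σ i)) ∂orthHaar (topN w)| ≤ 1 := fun U σ =>
    abs_integral_le_one fun V => abs_integral_le_one fun g => abs_prodH_le hb _ _
  have hb2 : ∀ (U : OG N) (σ : Fin n → Cube N), |pairVal h (topVec w U σ) (tVec k σ)| ≤ 1 :=
    fun U σ => abs_integral_le_one fun g => abs_integral_le_one fun G => abs_prodH_le hb _ _
  rw [← integral_sub (GG.integrable_rav (F := fun U σ =>
      ∫ V, Θ σ (fun i => act V (sub (topE w) U σ i)) ∂orthHaar (topN w)) hm1 hb1)
    (GG.integrable_rav (F := fun U σ => pairVal h (topVec w U σ) (tVec k σ)) hm2 hb2),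
    ← Real.norm_eq_abs]
  refine (norm_integral_le_of_norm_le_const (C := η) (Eventually.of_forall fun z => ?_)).trans_eq
    (by rw [probReal_univ, mul_one])
  rw [Real.norm_eq_abs, rav, rav, ← Finset.sum_sub_distrib]
  simp only [← mul_sub]
  exact abs_rav_le n _ _ fun σ => hpt z.1 σ

end Vale.Agent.P166.Haar2.Fresh
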