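import Vale.Agent.P157.Parisi.Cont.Expansion
import Vale.Agent.P157.Parisi.Upper.PairMom
import Vale.Agent.P168.Upper.Nested

/-!
Adding a small constant under the logarithm, uniformly: for averages, and for nested means of a
cascade.
-/

noncomputable section

open MeasureTheory ProbabilityTheory Filter
open scoped BigOperators Topology

namespace Vale.Agent.P166.Haar2.Fresh

open Vale.Agent.P168 (genNested cascMean cascFilter cascLaw cascSum CascTree treeMoment shapeProb
  shapeMarks Shape)
open Vale.Agent.P168.Cascade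

lemma log_one_add_mul_exp_le {ε : ℝ} (hε : 0 ≤ ε) (R a : ℝ) :
    Real.log (1 + ε * Real.exp a) ≤ ε * Real.exp R + max (a - R) 0 := by
  have h0 : 0 < 1 + ε * Real.exp a := by positivity
  rcases le_total a R with h | h
  · rw [max_eq_right (by linarith), add_zero]
    have h1 := Real.log_le_sub_one_of_pos h0
    have h2 := mul_le_mul_of_nonneg_left (Real.exp_le_exp.2 h) hε
    linarith
  · rw [max_eq_left (by linarith)]
    have h1 : 1 + ε * Real.exp a ≤ (1 + ε * Real.exp R) * Real.exp (a - R) := by
      have e : Real.exp a = Real.exp R * Real.exp (a - R) := by rw [← Real.exp_add]; ring_nf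
      rw [e]
      have h1' := Real.one_le_exp (show (0 : ℝ) ≤ a - R by linarith)
      linarith [mul_assoc ε (Real.exp R) (Real.exp (a - R)),
        add_mul 1 (ε * Real.exp R) (Real.exp (a - R))]
    have hp : 0 < 1 + ε * Real.exp R := by positivity
    have h2 := Real.log_le_log h0 h1
    rw [Real.log_mul hp.ne' (Real.exp_pos _).ne', Real.log_exp] at h2
    have h3 := Real.log_le_sub_one_of_pos hp
    linarith

/-- A small constant added to a number at least `exp (-a)`. -/
lemma log_add_sub_le {Z a ε : ℝ} (hε : 0 ≤ ε) (hZ : Real.exp (-a) ≤ Z) (R : ℝ) :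
    0 ≤ Real.log (Z + ε) - Real.log Z ∧
      Real.log (Z + ε) - Real.log Z ≤ ε * Real.exp R + max (a - R) 0 := by
  have hpos : 0 < Z := (Real.exp_pos _).trans_le hZ
  refine ⟨sub_nonneg.2 (Real.log_le_log hpos (by linarith)), ?_⟩
  refine le_trans ?_ (log_one_add_mul_exp_le hε R a)
  rw [← Real.log_div (by linarith) hpos.ne']
  refine Real.log_le_log (div_pos (by linarith) hpos) ?_
  rw [add_div, div_self hpos.ne']
  have h1 : 1 ≤ Real.exp a * Z := by
    have := mul_le_mul_of_nonneg_left hZ (Real.exp_pos a).le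
    rwa [← Real.exp_add, add_neg_cancel, Real.exp_zero] at this
  refine add_le_add_right ((div_le_iff₀ hpos).2 ?_) 1
  rw [mul_assoc]
  exact le_mul_of_one_le_right hε h1

/-- An exponential lies above its tangent. -/
lemma exp_tangent (a y : ℝ) :
    Real.exp (-a) * (1 + a) + -Real.exp (-a) * y ≤ Real.exp (-y) := by
  have h := mul_le_mul_of_nonneg_left (Real.add_one_le_exp (a - y)) (Real.exp_pos (-a)).le
  rw [← Real.exp_add, show -a + (a - y) = -y by ring] at h
  linarith

section Casc

variable {β : Type} {r : ℕ} {m : Fin r → ℝ} {n : Fin r → ℕ}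

lemma cascMean_add (m : Fin r → ℝ) (n : Fin r → ℕ) (Y h : (Fin r → β) → ℝ) (x : ℝ)
    (t : CascTree β r n) :
    cascMean m n (fun ω => Y ω + x * h ω) t = cascMean m n Y t + x * cascMean m n h t := by
  simp only [cascMean, cascSum_eq_sum_leaves, mul_add, Finset.sum_add_distrib, add_div,
    mul_div_assoc', Finset.mul_sum]
  congr 2
  exact Finset.sum_congr rfl fun f _ => by ring

lemma cascMean_one (m : Fin r → ℝ) (hn : ∀ i, 0 < n i) {t : CascTree β r n}
    (ht : GoodTree r n t) : cascMean m n (fun _ => 1) t = 1 :=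
  div_self (cascSum_one_pos m hn ht).ne'

lemma cascMean_mono {Y Y' : (Fin r → β) → ℝ} (hn : ∀ i, 0 < n i) (h : ∀ ω, Y ω ≤ Y' ω)
    {t : CascTree β r n} (ht : GoodTree r n t) : cascMean m n Y t ≤ cascMean m n Y' t :=
  div_le_div_of_nonneg_right (cascSum_mono h ht) (cascSum_one_pos m hn ht).le

lemma cascMean_affine (hn : ∀ i, 0 < n i) (g : (Fin r → β) → ℝ) (c x : ℝ) {t : CascTree β r n}
    (ht : GoodTree r n t) :
    cascMean m n (fun ω => c + x * g ω) t = c + x * cascMean m n g t := by
  have h1 := cascMean_add m n (fun _ => c) g x t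
  have h2 := cascMean_add m n (fun _ => (0 : ℝ)) (fun _ => 1) c t
  have h0 : cascMean m n (fun _ : Fin r → β => (0 : ℝ)) t = 0 := by
    simp [cascMean, cascSum_eq_sum_leaves]
  simp only [zero_add, mul_one, h0, cascMean_one m hn ht] at h2
  rw [h1, h2]

variable [MeasurableSpace β]

/-- The moment of one replica. -/
lemma treeMoment_single (ν : Measure β) [IsProbabilityMeasure ν] (m : Fin r → ℝ)
    {g : (Fin r → β) → ℝ} (hg : Measurable g) :
    treeMoment ν m (fun _ : Fin 1 => g) = ∫ η, g η ∂(Measure.pi fun _ : Fin r => ν) := by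
  classical
  simp only [treeMoment, Vale.Agent.P157.Parisi.Up.shapeProb_one, ite_mul, one_mul, zero_mul,
    Finset.sum_ite_eq', Finset.mem_univ, if_true, Fin.prod_univ_one]
  have hMP : MeasurePreserving (fun (ω : Fin r → Fin 1 → β) i => ω i 0)
      (Measure.pi fun _ : Fin r => Measure.pi fun _ : Fin 1 => ν)
      (Measure.pi fun _ : Fin r => ν) :=
    measurePreserving_pi _ _ fun _ => measurePreserving_eval (fun _ : Fin 1 => ν) 0
  rw [← Vale.Agent.P168.Upper.integral_mp hMP hg]
  refine integral_congr_ae (Eventually.of_forall fun ω => ?_)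
  show g _ = g _
  congr 1
  funext i
  exact congrArg (ω i) (Subsingleton.elim _ _)

/-- The bound for bounded weights. -/
lemma log_genNested_add_le_bdd (ν : Measure β) [IsProbabilityMeasure ν] (hm : Exps m) {C ε R L : ℝ}
    (hε : 0 ≤ ε) (hL : 0 < L) {Y y f : (Fin r → β) → ℝ} (hY : Bdd C Y) (hY' : Bdd C fun η => Y η + ε)
    (hyY : ∀ η, Real.exp (-y η) ≤ Y η) (hfm : Measurable f) (hf : ∀ η, 0 ≤ f η ∧ f η ≤ L)
    (hfy : ∀ η, y η - R ≤ f η) :
    0 ≤ Real.log (genNested ν m fun η => Y η + ε) - Real.log (genNested ν m Y) ∧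
      Real.log (genNested ν m fun η => Y η + ε) - Real.log (genNested ν m Y) ≤
        ε * Real.exp R + ∫ η, f η ∂(Measure.pi fun _ : Fin r => ν) := by
  have := Vale.Agent.P157.Parisi.Cont.cascFilter_neBot r
  set g : (Fin r → β) → ℝ := fun η => f η / L with hg
  have hgm : Measurable g := hfm.div_const _
  have hgb : ∀ η, |g η| ≤ 1 := fun η => by
    rw [hg, abs_div, abs_of_nonneg (hf η).1, abs_of_pos hL]
    exact div_le_one_of_le₀ (hf η).2 hL.le
  have hlimD := ((cascadeLog β ν r m hm.pos hm.lt_one hm.mono _ C hY.pos hY'.meas hY'.mem).sub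
    (cascadeLog β ν r m hm.pos hm.lt_one hm.mono Y C hY.pos hY.meas hY.mem))
  have hlimM := cascadeMoment β ν r 1 m hm.pos hm.lt_one hm.mono (fun _ => g) (fun _ => hgm)
    fun _ => hgb
  simp only [Fin.prod_univ_one, treeMoment_single ν m hgm] at hlimM
  have eI : L * ∫ η, g η ∂(Measure.pi fun _ : Fin r => ν) =
      ∫ η, f η ∂(Measure.pi fun _ : Fin r => ν) := by
    rw [← integral_const_mul]
    refine integral_congr_ae (Eventually.of_forall fun η => ?_)
    simp only [hg]
    field_simp
  have key : ∀ᶠ nn in cascFilter r,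
      0 ≤ (∫ t, Real.log (cascMean m nn (fun η => Y η + ε) t) ∂cascLaw ν r nn) -
          ∫ t, Real.log (cascMean m nn Y t) ∂cascLaw ν r nn ∧
      (∫ t, Real.log (cascMean m nn (fun η => Y η + ε) t) ∂cascLaw ν r nn) -
          ∫ t, Real.log (cascMean m nn Y t) ∂cascLaw ν r nn ≤
        ε * Real.exp R + L * ∫ t, cascMean m nn g t ∂cascLaw ν r nn := by
    filter_upwards [eventually_pos r] with nn hn
    have hlog : ∀ {Z : (Fin r → β) → ℝ}, Bdd C Z →
        Integrable (fun t => Real.log (cascMean m nn Z t)) (cascLaw ν r nn) := fun {Z} hZ =>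
      Integrable.of_bound (Vale.Agent.P157.Parisi.Cont.measurable_cascMean m nn hZ.meas).log.aestronglyMeasurable |Real.log C|
        ((ae_good ν r nn).mono fun t ht => abs_log_le hZ.pos
          (Vale.Agent.P157.Parisi.Cont.cascMean_mem hZ m hn ht).1
          (Vale.Agent.P157.Parisi.Cont.cascMean_mem hZ m hn ht).2)
    have hig : Integrable (fun t => cascMean m nn g t) (cascLaw ν r nn) :=
      Integrable.of_bound
        (Vale.Agent.P157.Parisi.Cont.measurable_cascMean m nn hgm).aestronglyMeasurable 1
        ((ae_good ν r nn).mono fun t ht =>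
          Vale.Agent.P157.Parisi.Cont.abs_cascMean_le hgb m hn ht)
    have hpt : ∀ᵐ t ∂cascLaw ν r nn,
        0 ≤ Real.log (cascMean m nn (fun η => Y η + ε) t) - Real.log (cascMean m nn Y t) ∧
        Real.log (cascMean m nn (fun η => Y η + ε) t) - Real.log (cascMean m nn Y t) ≤
          ε * Real.exp R + L * cascMean m nn g t := by
      filter_upwards [ae_good ν r nn] with t ht
      set a := R + L * cascMean m nn g t with ha
      have e1 : cascMean m nn (fun η => Y η + ε) t = cascMean m nn Y t + ε := by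
        have := cascMean_add m nn Y (fun _ => 1) ε t
        simpa [cascMean_one m hn ht] using this
      have hga : 0 ≤ cascMean m nn g t := by
        have h := cascMean_mono (m := m) hn (Y := fun η => 0 + 0 * g η) (Y' := g)
          (fun η => by simpa [hg] using div_nonneg (hf η).1 hL.le) ht
        rwa [cascMean_affine hn g 0 0 ht, zero_mul, add_zero] at h
      have hjen : Real.exp (-a) ≤ cascMean m nn Y t := by
        have h := cascMean_mono (m := m) hn
          (Y := fun η => Real.exp (-a) * (1 + a - R) + -(Real.exp (-a) * L) * g η) (Y' := Y)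
          (fun η => by
            have h1 := exp_tangent a (R + f η)
            have h2 : Real.exp (-(R + f η)) ≤ Real.exp (-y η) :=
              Real.exp_le_exp.2 (by linarith [hfy η])
            have e : L * g η = f η := by simp only [hg]; field_simp
            have e' : Real.exp (-a) * (1 + a - R) + -(Real.exp (-a) * L) * g η =
                Real.exp (-a) * (1 + a) + -Real.exp (-a) * (R + f η) := by rw [← e]; ring
            linarith [hyY η]) ht
        rw [cascMean_affine hn g _ _ ht] at h
        refine le_trans (le_of_eq ?_) h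
        simp only [ha]
        ring
      obtain ⟨h1, h2⟩ := log_add_sub_le hε hjen R
      rw [e1]
      refine ⟨h1, h2.trans (le_of_eq ?_)⟩
      rw [ha, add_sub_cancel_left, max_eq_left (mul_nonneg hL.le hga)]
    rw [← integral_sub (hlog hY') (hlog hY)]
    refine ⟨integral_nonneg_of_ae (hpt.mono fun t ht => ht.1), ?_⟩
    refine (integral_mono_ae ((hlog hY').sub (hlog hY)) ((integrable_const _).add (hig.const_mul L))
      (hpt.mono fun t ht => ht.2)).trans_eq ?_
    simp only [Pi.add_apply]
    rw [integral_add (integrable_const _) (hig.const_mul L)]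
    simp only [integral_const_mul, integral_const, probReal_univ, one_smul]
  refine ⟨ge_of_tendsto hlimD (key.mono fun _ h => h.1), ?_⟩
  rw [← eI]
  exact le_of_tendsto_of_tendsto hlimD ((hlimM.const_mul L).const_add (ε * Real.exp R))
    (key.mono fun _ h => h.2)

/-- Dominated convergence for nested means. -/
lemma tendsto_genNested (ν : Measure β) [IsProbabilityMeasure ν] :
    ∀ {r : ℕ} {m : Fin r → ℝ}, (∀ i, 0 < m i) → ∀ {C : ℝ} {Yk : ℕ → (Fin r → β) → ℝ}
      {Y : (Fin r → β) → ℝ}, (∀ k, Measurable (Yk k)) → (∀ k η, 0 < Yk k η ∧ Yk k η ≤ C) →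
      (∀ η, Tendsto (fun k => Yk k η) atTop (𝓝 (Y η))) →
      Tendsto (fun k => genNested ν m (Yk k)) atTop (𝓝 (genNested ν m Y))
  | 0, _, _, _, _, _, _, _, h => h _
  | r + 1, m, hm, C, Yk, Y, hmeas, hb, h => by
    have hcons : Measurable fun q : β × (Fin r → β) => (Fin.cons q.1 q.2 : Fin (r + 1) → β) :=
      measurable_cons
    have hC : 0 < C := (hb 0 fun _ => Classical.choice
      (nonempty_of_isProbabilityMeasure ν)).1.trans_le
        (hb 0 fun _ => Classical.choice (nonempty_of_isProbabilityMeasure ν)).2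
    have hle : ∀ {r' : ℕ} (m' : Fin r' → ℝ), (∀ i, 0 < m' i) → ∀ (Z : (Fin r' → β) → ℝ),
        Measurable Z → (∀ η, 0 < Z η ∧ Z η ≤ C) → genNested ν m' Z ≤ C := by
      intro r'
      induction r' with
      | zero => intro m' _ Z _ hZ; exact (hZ _).2
      | succ r' ih =>
        intro m' hm' Z hZm hZ
        have h0 : ∀ b, 0 ≤ genNested ν (Fin.tail m') fun ω => Z (Fin.cons b ω) := fun b =>
          Vale.Agent.P168.Upper.genNested_nonneg ν _ _ fun ω => (hZ _).1.le
        have h1 : ∀ b, (genNested ν (Fin.tail m') fun ω => Z (Fin.cons b ω)) ^ m' 0 ≤ C ^ m' 0 :=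
          fun b => Real.rpow_le_rpow (h0 b) (ih _ (fun i => hm' i.succ) _
            (hZm.comp (measurable_cons.comp (measurable_const.prodMk measurable_id))) fun ω => hZ _)
            (hm' 0).le
        have hi : Integrable (fun b => (genNested ν (Fin.tail m') fun ω => Z (Fin.cons b ω)) ^ m' 0) ν :=
          Integrable.of_bound ((measurable_genNested_cons ν _ hZm).pow_const _).aestronglyMeasurable
            (C ^ m' 0) (Eventually.of_forall fun b => by
              rw [Real.norm_eq_abs, abs_of_nonneg (Real.rpow_nonneg (h0 b) _)]; exact h1 b)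
        show (∫ b, _ ∂ν) ^ (1 / m' 0) ≤ C
        refine (Real.rpow_le_rpow (integral_nonneg fun b => Real.rpow_nonneg (h0 b) _)
          ((integral_mono hi (integrable_const _) h1).trans_eq
            (show ∫ _, C ^ m' 0 ∂ν = C ^ m' 0 by simp))
          (one_div_pos.2 (hm' 0)).le).trans_eq ?_
        rw [← Real.rpow_mul hC.le, mul_one_div, div_self (hm' 0).ne', Real.rpow_one]
    show Tendsto (fun k => (∫ b, _ ∂ν) ^ (1 / m 0)) atTop (𝓝 ((∫ b, _ ∂ν) ^ (1 / m 0)))
    refine ((Real.continuous_rpow_const (one_div_pos.2 (hm 0)).le).tendsto _).comp ?_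
    refine tendsto_integral_of_dominated_convergence (fun _ => C ^ m 0)
      (fun k => ((measurable_genNested_cons ν _ (hmeas k)).pow_const _).aestronglyMeasurable)
      (integrable_const _) (fun k => Eventually.of_forall fun b => ?_)
      (Eventually.of_forall fun b => ?_)
    · have h0 : 0 ≤ genNested ν (Fin.tail m) fun ω => Yk k (Fin.cons b ω) :=
        Vale.Agent.P168.Upper.genNested_nonneg ν _ _ fun ω => (hb k _).1.le
      rw [Real.norm_eq_abs, abs_of_nonneg (Real.rpow_nonneg h0 _)]
      exact Real.rpow_le_rpow h0 (hle _ (fun i => hm i.succ) _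
        ((hmeas k).comp (measurable_cons.comp (measurable_const.prodMk measurable_id)))
        fun ω => hb k _) (hm 0).le
    · exact ((Real.continuous_rpow_const (hm 0).le).tendsto _).comp
        (tendsto_genNested ν (fun i => hm i.succ)
          (fun k => (hmeas k).comp (measurable_cons.comp (measurable_const.prodMk measurable_id)))
          (fun k ω => hb k _) fun ω => h _)

/-- A small constant added to a weight which is small only where a function with small mean is
large, inside nested means. -/
theorem log_genNested_add_le (ν : Measure β) [IsProbabilityMeasure ν] (hm : Exps m) {C ε R : ℝ}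
    (hε : 0 < ε) (hR : 0 ≤ R) {Y y f : (Fin r → β) → ℝ} (hYm : Measurable Y)
    (hY : ∀ η, Real.exp (-y η) ≤ Y η ∧ Y η ≤ C) (hfm : Measurable f)
    (hfi : Integrable f (Measure.pi fun _ : Fin r => ν))
    (hf : ∀ η, max (y η - R) 0 ≤ f η) :
    0 < genNested ν m Y ∧
      0 ≤ Real.log (genNested ν m fun η => Y η + ε) - Real.log (genNested ν m Y) ∧
      Real.log (genNested ν m fun η => Y η + ε) - Real.log (genNested ν m Y) ≤
        ε * Real.exp R + ∫ η, f η ∂(Measure.pi fun _ : Fin r => ν) := by
  set B := ε * Real.exp R + ∫ η, f η ∂(Measure.pi fun _ : Fin r => ν)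
  have hY0 : ∀ η, 0 < Y η := fun η => (Real.exp_pos _).trans_le (hY η).1
  obtain ⟨η₀⟩ : Nonempty (Fin r → β) := ⟨fun _ => Classical.choice
    (nonempty_of_isProbabilityMeasure ν)⟩
  have hC : 0 < C := (hY0 η₀).trans_le (hY η₀).2
  have hbd : ∀ k : ℕ,
      0 < genNested ν m (fun η => Y η + 1 / ((k : ℝ) + 1)) ∧
      0 ≤ Real.log (genNested ν m fun η => Y η + 1 / ((k : ℝ) + 1) + ε) -
        Real.log (genNested ν m fun η => Y η + 1 / ((k : ℝ) + 1)) ∧
      Real.log (genNested ν m fun η => Y η + 1 / ((k : ℝ) + 1) + ε) -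
        Real.log (genNested ν m fun η => Y η + 1 / ((k : ℝ) + 1)) ≤ B := fun k => by
    set δ := 1 / ((k : ℝ) + 1) with hδ
    have hδ0 : 0 < δ := by positivity
    set C' := max (C + δ + ε) δ⁻¹
    have hC'0 : 0 < C' := lt_max_of_lt_right (inv_pos.2 hδ0)
    have hi : C'⁻¹ ≤ δ := (inv_le_comm₀ hC'0 hδ0).2 (le_max_right _ _)
    have hb1 : Bdd C' fun η => Y η + δ := ⟨hC'0, hYm.add measurable_const, fun η =>
      ⟨by linarith [hY0 η], (show Y η + δ ≤ C + δ + ε by linarith [(hY η).2]).trans (le_max_left _ _)⟩⟩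
    have hb2 : Bdd C' fun η => Y η + δ + ε :=
      ⟨hC'0, (hYm.add measurable_const).add measurable_const, fun η =>
        ⟨by linarith [hY0 η], (show Y η + δ + ε ≤ C + δ + ε by linarith [(hY η).2]).trans (le_max_left _ _)⟩⟩
    set L := max (-Real.log δ) 1 with hL
    have hL0 : 0 < L := lt_max_of_lt_right one_pos
    have hy : ∀ η, Real.exp (-min (y η) L) ≤ Y η + δ := fun η => by
      rcases le_total (y η) L with h | h
      · rw [min_eq_left h]; linarith [(hY η).1]
      · rw [min_eq_right h]
        have := Real.exp_le_exp.2 (neg_le_neg (le_max_left (-Real.log δ) 1))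
        rw [neg_neg, Real.exp_log hδ0] at this
        linarith [hY0 η, hL ▸ this]
    obtain ⟨h1, h2⟩ := log_genNested_add_le_bdd ν hm hε.le hL0 (R := R) hb1 hb2 hy
      (hfm.min measurable_const)
      (fun η => ⟨le_min ((le_max_right _ _).trans (hf η)) hL0.le, min_le_right _ _⟩)
      (fun η => le_min ((sub_le_sub_right (min_le_left _ _) R).trans
        ((le_max_left _ _).trans (hf η))) (by linarith [min_le_right (y η) L]))
    refine ⟨(inv_pos.2 hC'0).trans_le (genNested_mem ν hC'0 hm hb1.meas hb1.mem).1, h1,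
      h2.trans (add_le_add_right ?_ _)⟩
    refine integral_mono ?_ hfi fun η => min_le_left _ _
    exact Integrable.of_bound (hfm.min measurable_const).aestronglyMeasurable L
      (Eventually.of_forall fun η => by
        rw [Real.norm_eq_abs, abs_of_nonneg (le_min ((le_max_right _ _).trans (hf η)) hL0.le)]
        exact min_le_right _ _)
  have hδ : Tendsto (fun k : ℕ => 1 / ((k : ℝ) + 1)) atTop (𝓝 0) :=
    tendsto_one_div_add_atTop_nhds_zero_nat
  have hδ1 : ∀ k : ℕ, 1 / ((k : ℝ) + 1) ≤ 1 := fun k => by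
    rw [div_le_one (by positivity)]; linarith [(Nat.cast_nonneg k : (0 : ℝ) ≤ k)]
  have hδp : ∀ k : ℕ, 0 < 1 / ((k : ℝ) + 1) := fun k => by positivity
  have t1 : Tendsto (fun k : ℕ => genNested ν m fun η => Y η + 1 / ((k : ℝ) + 1)) atTop
      (𝓝 (genNested ν m Y)) :=
    tendsto_genNested ν hm.pos (C := C + 1) (fun k => hYm.add measurable_const)
      (fun k η => ⟨by linarith [hY0 η, hδp k], by linarith [(hY η).2, hδ1 k]⟩)
      fun η => by simpa using hδ.const_add (Y η)
  have t2 : Tendsto (fun k : ℕ => genNested ν m fun η => Y η + 1 / ((k : ℝ) + 1) + ε) atTop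
      (𝓝 (genNested ν m fun η => Y η + ε)) :=
    tendsto_genNested ν hm.pos (C := C + 1 + ε)
      (fun k => (hYm.add measurable_const).add measurable_const)
      (fun k η => ⟨by linarith [hY0 η, hδp k], by linarith [(hY η).2, hδ1 k]⟩)
      fun η => by simpa using (hδ.const_add (Y η)).add_const ε
  have hGe : 0 < genNested ν m fun η => Y η + ε := by
    have hC' : 0 < max (C + ε) ε⁻¹ := lt_max_of_lt_right (inv_pos.2 hε)
    have hi := (inv_le_comm₀ hC' hε).2 (le_max_right (C + ε) ε⁻¹)
    exact (inv_pos.2 hC').trans_le (genNested_mem ν hC' hm (hYm.add measurable_const) fun η =>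
      ⟨show _ ≤ Y η + ε by linarith [hY0 η],
        (show Y η + ε ≤ C + ε by linarith [(hY η).2]).trans (le_max_left _ _)⟩).1
  have hY0' : 0 < genNested ν m Y := by
    have hlow : ∀ᶠ k : ℕ in atTop,
        (genNested ν m fun η => Y η + ε) / 2 * Real.exp (-B) ≤
          genNested ν m fun η => Y η + 1 / ((k : ℝ) + 1) := by
      filter_upwards [t2.eventually_const_lt (half_lt_self hGe)] with k hk
      obtain ⟨hp, _, hB⟩ := hbd k
      have hq : 0 < genNested ν m fun η => Y η + 1 / ((k : ℝ) + 1) + ε :=
        lt_trans (half_pos hGe) hk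
      have h1 := Real.exp_le_exp.2 hB
      rw [Real.exp_sub, Real.exp_log hq, Real.exp_log hp, div_le_iff₀ hp] at h1
      rw [Real.exp_neg, ← div_eq_mul_inv, div_le_iff₀ (Real.exp_pos B)]
      linarith
    exact (mul_pos (half_pos hGe) (Real.exp_pos _)).trans_le
      (ge_of_tendsto t1 hlow)
  have tl := ((Real.continuousAt_log hGe.ne').tendsto.comp t2).sub
    ((Real.continuousAt_log hY0'.ne').tendsto.comp t1)
  exact ⟨hY0', ge_of_tendsto tl (Eventually.of_forall fun k => (hbd k).2.1),
    le_of_tendsto tl (Eventually.of_forall fun k => (hbd k).2.2)⟩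

end Casc

end Vale.Agent.P166.Haar2.Fresh
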