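import Vale.Agent.P166.Haar2.Sys
import Vale.Agent.P166.Haar2.Fresh.Pair
import Vale.Agent.P166.Haar2.Fresh.Tail
import Vale.Agent.P157.Parisi.Cont.Obs

/-!
Fields on cascades: on a tree they are Gaussian forms with the covariance paths as Gram matrices;
the mean logarithm of a weight as a series, and its insensitivity to a small constant.
-/

noncomputable section

open MeasureTheory ProbabilityTheory Filter Finset
open scoped BigOperators Topology

namespace Vale.Agent.P166.Haar2.Fresh

open Vale.Agent.P157 (gam dot)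
open Vale.Agent.P157.Parisi.Cont (gramOf forms expVal sum_path_steps rep_eq_rep_iff continuous_forms
  abs_log_sub_series_le gq integrable_bdd)
open Vale.Agent.P168 (Shape shapeMarks shapeRep shapeProb genNested treeMoment)
open Vale.Agent.P168.Cascade (IsTree Exps Bdd tableLaw genNested_mem measurable_genNested
  isTree_of_prob measurable_shapeMarks abs_log_le)
open Vale.Agent.P168.Upper (mp_precomp mp_curry mp_uncurry mp_pi integral_mp)

variable {r n p : ℕ}

/-- The Gaussian coordinates of the fields of `n` leaves. -/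
abbrev LIdx (r n : ℕ) := (Unit ⊕ (Fin r × Fin n)) ⊕ Fin n

/-- The field of leaf `a` as a vector. -/
def elVec (P : El r) (v : Shape r n) (a : Fin n) : LIdx r n → ℝ :=
  Sum.elim (Sum.elim (fun _ => Real.sqrt (P.v 0))
      (fun pc => if shapeRep v (pc.1.val + 1) a = pc.2 then
        Real.sqrt (P.v pc.1.succ - P.v pc.1.castSucc) else 0))
    (fun c => if c = a then Real.sqrt (P.s - P.v (Fin.last r)) else 0)

lemma gramOf_elVec {P : El r} (hP : P.IsCov) {v : Shape r n} (hv : IsTree v) :
    gramOf (elVec P v) = fun a b => if a = b then P.s else P.v (v a b) := by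
  funext a b
  have h1 : 0 ≤ P.s - P.v (Fin.last r) := sub_nonneg.2 hP.le
  have e : gramOf (elVec P v) a b = P.v (v a b) +
      if a = b then P.s - P.v (Fin.last r) else 0 := by
    simp only [gramOf, dot, elVec, Fintype.sum_sum_type, Sum.elim_inl, Sum.elim_inr,
      Fintype.sum_prod_type, univ_unique, sum_singleton, Real.mul_self_sqrt hP.nonneg]
    rw [← sum_path_steps P.v (v a b)]
    congr 1
    · congr 1
      refine sum_congr rfl fun q _ => ?_
      simp only [ite_mul, zero_mul, sum_ite_eq, mem_univ, if_true, mul_ite, mul_zero]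
      rw [if_congr (rep_eq_rep_iff hv q a b) rfl rfl,
        Real.mul_self_sqrt (sub_nonneg.2 (hP.mono (Fin.castSucc_le_succ q)))]
    · simp only [ite_mul, zero_mul, mul_ite, mul_zero]
      by_cases hab : a = b
      · subst hab
        simp [Real.mul_self_sqrt h1]
      · simp [hab]
        exact fun h => absurd h.symm hab
  rw [e]
  split_ifs with hab
  · rw [hab, hv.diag]; ring
  · ring

lemma forms_elVec (P : El r) (v : Shape r n) (g : LIdx r n → ℝ) (a : Fin n) :
    forms (elVec P v) g a = Real.sqrt (P.v 0) * g (Sum.inl (Sum.inl ())) +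
      (∑ q : Fin r, Real.sqrt (P.v q.succ - P.v q.castSucc) *
        g (Sum.inl (Sum.inr (q, shapeRep v (q.val + 1) a)))) +
      Real.sqrt (P.s - P.v (Fin.last r)) * g (Sum.inr a) := by
  simp only [forms, dot, elVec, Fintype.sum_sum_type, Sum.elim_inl, Sum.elim_inr,
    Fintype.sum_prod_type, mul_ite, mul_zero, sum_ite_eq, sum_ite_eq', mem_univ, if_true,
    univ_unique, sum_singleton]
  refine congrArg₂ (· + ·) (congrArg₂ (· + ·) (mul_comm _ _) (sum_congr rfl fun q _ => ?_))
    (mul_comm _ _)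
  ring

/-- The index of the coordinates read by the fields. -/
abbrev TreeIdx (r n p : ℕ) :=
  (Fin p ⊕ Fin 1) ⊕ ((Fin r × (Fin n × (Fin p ⊕ Fin 1))) ⊕ (Fin n × (Fin p ⊕ Fin 1)))

/-- The place of a coordinate of a field among those of `p` copies and one more. -/
def put (r n p : ℕ) (d : Fin p ⊕ Fin 1) (l : LIdx r n) :
    (Fin p × LIdx r n) ⊕ LIdx r n :=
  Sum.elim (fun j => Sum.inl (j, l)) (fun _ => Sum.inr l) d

/-- Where the fields read the Gaussian coordinates. -/
def treeEmb (r n p : ℕ) : TreeIdx r n p → (Fin p × LIdx r n) ⊕ LIdx r n :=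
  Sum.elim (fun d => put r n p d (Sum.inl (Sum.inl ())))
    (Sum.elim (fun x => put r n p x.2.2 (Sum.inl (Sum.inr (x.1, x.2.1))))
      fun x => put r n p x.2 (Sum.inr x.1))

lemma put_inj {d d' : Fin p ⊕ Fin 1} {l l' : LIdx r n} (h : put r n p d l = put r n p d' l') :
    d = d' ∧ l = l' := by
  rcases d with j | j <;> rcases d' with j' | j' <;> simp [put] at h ⊢
  · exact h
  · exact ⟨Subsingleton.elim _ _, h⟩

lemma treeEmb_injective : Function.Injective (treeEmb r n p) := by
  rintro (a | ⟨a, b, c⟩ | ⟨b, c⟩) (a' | ⟨a', b', c'⟩ | ⟨b', c'⟩) h <;>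
    have h' := put_inj h <;> simp_all [Prod.ext_iff]

/-- Fields at the leaves, from a table of marks. -/
def leafF (P : Fin p ⊕ Fin 1 → El r) (g₀ : Fin p ⊕ Fin 1 → ℝ) (η : Fin r → Fin p ⊕ Fin 1 → ℝ)
    (e : Fin p ⊕ Fin 1 → ℝ) : Fin p ⊕ Fin 1 → ℝ := casField P g₀ η e

lemma continuous_leafF (P : Fin p ⊕ Fin 1 → El r) :
    Continuous fun z : (Fin p ⊕ Fin 1 → ℝ) × (Fin r → Fin p ⊕ Fin 1 → ℝ) × (Fin p ⊕ Fin 1 → ℝ) =>
      leafF P z.1 z.2.1 z.2.2 := by
  refine continuous_pi fun d => ?_
  unfold leafF casField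
  fun_prop

/-- The innermost average of a function of the fields. -/
def innerAvg (P : Fin p ⊕ Fin 1 → El r) (h : (Fin p ⊕ Fin 1 → ℝ) → ℝ)
    (g₀ : Fin p ⊕ Fin 1 → ℝ) (η : Fin r → Fin p ⊕ Fin 1 → ℝ) : ℝ :=
  ∫ e, h (casField P g₀ η e) ∂gam (Fin p ⊕ Fin 1)

lemma continuous_innerAvg (P : Fin p ⊕ Fin 1 → El r) {h : (Fin p ⊕ Fin 1 → ℝ) → ℝ}
    (hh : Continuous h) {K : ℝ} (hK : ∀ z, |h z| ≤ K) :
    Continuous fun z : (Fin p ⊕ Fin 1 → ℝ) × (Fin r → Fin p ⊕ Fin 1 → ℝ) =>
      innerAvg P h z.1 z.2 := by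
  refine continuous_of_dominated (bound := fun _ => K) (fun z => ?_) (fun z => ?_)
    (integrable_const _) (Eventually.of_forall fun e => ?_)
  · exact (hh.comp ((continuous_leafF P).comp (continuous_const.prodMk
      (continuous_const.prodMk continuous_id)))).measurable.aestronglyMeasurable
  · exact Eventually.of_forall fun e => (Real.norm_eq_abs _).trans_le (hK _)
  · exact hh.comp ((continuous_leafF P).comp (continuous_fst.prodMk
      (continuous_snd.prodMk continuous_const)))

lemma abs_innerAvg_le (P : Fin p ⊕ Fin 1 → El r) {h : (Fin p ⊕ Fin 1 → ℝ) → ℝ} {K : ℝ}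
    (hK : ∀ z, |h z| ≤ K) (g₀ : Fin p ⊕ Fin 1 → ℝ) (η : Fin r → Fin p ⊕ Fin 1 → ℝ) :
    |innerAvg P h g₀ η| ≤ K := by
  rw [← Real.norm_eq_abs]
  exact (norm_integral_le_of_norm_le_const (C := K) (Eventually.of_forall fun e =>
    (Real.norm_eq_abs _).trans_le (hK _))).trans_eq (by rw [probReal_univ, mul_one])

/-- The expectation of a product over the leaves of a tree, by successive averages. -/
theorem pairVal_elVec (P E : El r) (v : Shape r n) {h : (Fin p ⊕ Fin 1 → ℝ) → ℝ}
    (hh : Continuous h) (hb : ∀ z, |h z| ≤ 1) :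
    pairVal h (elVec P v) (elVec E v) = ∫ g₀, ∫ ω,
      ∏ a, innerAvg (Sum.elim (fun _ => P) fun _ => E) h g₀ (shapeMarks v ω a)
        ∂tableLaw (gam (Fin p ⊕ Fin 1)) r n ∂gam (Fin p ⊕ Fin 1) := by
  set Pr : Fin p ⊕ Fin 1 → El r := Sum.elim (fun _ => P) fun _ => E with hPr
  let F : (Fin p ⊕ Fin 1 → ℝ) × ((Fin r → Fin n → Fin p ⊕ Fin 1 → ℝ) ×
      (Fin n → Fin p ⊕ Fin 1 → ℝ)) → ℝ := fun z =>
    ∏ a, h (casField Pr z.1 (shapeMarks v z.2.1 a) (z.2.2 a))
  have hFc : Continuous F := by
    refine continuous_finsetProd _ fun a _ => hh.comp (continuous_pi fun d => ?_)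
    simp only [casField, shapeMarks]
    fun_prop
  have hFb : ∀ z, ‖F z‖ ≤ 1 := fun z => by
    rw [Real.norm_eq_abs, abs_prod]
    exact prod_le_one (fun a _ => abs_nonneg _) fun a _ => hb _
  let R : (Fin p → LIdx r n → ℝ) × (LIdx r n → ℝ) → (Fin p ⊕ Fin 1 → ℝ) ×
      ((Fin r → Fin n → Fin p ⊕ Fin 1 → ℝ) × (Fin n → Fin p ⊕ Fin 1 → ℝ)) := fun z =>
    ((fun d => Sum.elim (fun q : Fin p × LIdx r n => z.1 q.1 q.2) z.2
        (put r n p d (Sum.inl (Sum.inl ())))),
      (fun q c d => Sum.elim (fun q : Fin p × LIdx r n => z.1 q.1 q.2) z.2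
        (put r n p d (Sum.inl (Sum.inr (q, c))))),
      fun a d => Sum.elim (fun q : Fin p × LIdx r n => z.1 q.1 q.2) z.2
        (put r n p d (Sum.inr a)))
  have hR : MeasurePreserving R
      ((Measure.pi fun _ : Fin p => gam (LIdx r n)).prod (gam (LIdx r n)))
      ((gam (Fin p ⊕ Fin 1)).prod ((tableLaw (gam (Fin p ⊕ Fin 1)) r n).prod
        (Measure.pi fun _ : Fin n => gam (Fin p ⊕ Fin 1)))) := by
    have h0 : MeasurePreserving
        (fun z : (Fin p → LIdx r n → ℝ) × (LIdx r n → ℝ) =>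
          (MeasurableEquiv.sumPiEquivProdPi fun _ : (Fin p × LIdx r n) ⊕ LIdx r n => ℝ).symm
            ((fun q : Fin p × LIdx r n => z.1 q.1 q.2), z.2))
        ((Measure.pi fun _ : Fin p => gam (LIdx r n)).prod (gam (LIdx r n)))
        (gam ((Fin p × LIdx r n) ⊕ LIdx r n)) :=
      (measurePreserving_sumPiEquivProdPi_symm
        fun _ : (Fin p × LIdx r n) ⊕ LIdx r n => gaussianReal 0 1).comp
        ((mp_uncurry (ι := Fin p) (κ := LIdx r n) (gaussianReal 0 1)).prod
          (MeasurePreserving.id (gam (LIdx r n))))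
    have h1 := (mp_precomp (gaussianReal 0 1) (treeEmb_injective (r := r) (n := n) (p := p))).comp h0
    have h2 := (measurePreserving_sumPiEquivProdPi fun _ : TreeIdx r n p =>
      gaussianReal 0 1).comp h1
    have h3 := ((MeasurePreserving.id (gam (Fin p ⊕ Fin 1))).prod
      (measurePreserving_sumPiEquivProdPi fun _ : (Fin r × (Fin n × (Fin p ⊕ Fin 1))) ⊕
        (Fin n × (Fin p ⊕ Fin 1)) => gaussianReal 0 1)).comp h2
    have h4 := ((MeasurePreserving.id (gam (Fin p ⊕ Fin 1))).prod
      (((mp_pi (ι := Fin r) (mp_curry (ι := Fin n) (κ := Fin p ⊕ Fin 1) (gaussianReal 0 1))).comp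
        (mp_curry (ι := Fin r) (κ := Fin n × (Fin p ⊕ Fin 1)) (gaussianReal 0 1))).prod
          (mp_curry (ι := Fin n) (κ := Fin p ⊕ Fin 1) (gaussianReal 0 1)))).comp h3
    refine (?_ : R = _) ▸ h4
    funext z
    refine Prod.ext (funext fun d => ?_) (Prod.ext (funext fun q => funext fun c => funext fun d => ?_)
      (funext fun a => funext fun d => ?_)) <;> rcases d with j | j <;> rfl
  rw [pairVal_eq_prod hh hb]
  have e : ∀ z : (Fin p → LIdx r n → ℝ) × (LIdx r n → ℝ),
      prodH h (forms (elVec E v) z.2) (fun j => forms (elVec P v) (z.1 j)) = F (R z) := fun z => by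
    refine prod_congr rfl fun a _ => congrArg h (funext fun d => ?_)
    rcases d with j | j <;>
      simp only [Sum.elim_inl, Sum.elim_inr, forms_elVec, casField, shapeMarks, hPr, R, put]
  rw [integral_congr_ae (Eventually.of_forall e), integral_mp hR hFc.measurable,
    integral_prod _ (Integrable.of_bound hFc.aestronglyMeasurable 1 (Eventually.of_forall hFb))]
  refine integral_congr_ae (Eventually.of_forall fun g₀ => ?_)
  beta_reduce
  have hi : Integrable (fun y => F (g₀, y)) ((tableLaw (gam (Fin p ⊕ Fin 1)) r n).prod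
      (Measure.pi fun _ : Fin n => gam (Fin p ⊕ Fin 1))) := Integrable.of_bound
    (hFc.comp (continuous_const.prodMk continuous_id)).aestronglyMeasurable 1
    (Eventually.of_forall fun z => hFb _)
  rw [integral_prod _ hi]
  refine integral_congr_ae (Eventually.of_forall fun ω => ?_)
  exact integral_fintype_prod_eq_prod
    (fun a (z : Fin p ⊕ Fin 1 → ℝ) => h (casField Pr g₀ (shapeMarks v ω a) z))

/-- The mean logarithm of a bounded weight as a series of tree means. -/
theorem cascade_series {m : Fin r → ℝ} (hm : Exps m) (P E : El r) {Cw : ℝ} (hC : 1 ≤ Cw)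
    {W : (Fin p ⊕ Fin 1 → ℝ) → ℝ} (hWc : Continuous W) (hW : ∀ z, Cw⁻¹ ≤ W z ∧ W z ≤ Cw) (D : ℕ) :
    |cascV m (Sum.elim (fun _ : Fin p => P) fun _ : Fin 1 => E) W - (Real.log Cw -
        ∑ d ∈ range D, (∑ v : Shape r (d + 1), shapeProb m (d + 1) v *
          pairVal (fun z => 1 - W z / Cw) (elVec P v) (elVec E v)) / (d + 1))| ≤
      gq Cw ^ (D + 1) / (1 - gq Cw) := by
  set Pr : Fin p ⊕ Fin 1 → El r := Sum.elim (fun _ => P) fun _ => E with hPr
  set ν := gam (Fin p ⊕ Fin 1)
  have hC0 : 0 < Cw := by linarith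
  set h : (Fin p ⊕ Fin 1 → ℝ) → ℝ := fun z => 1 - W z / Cw with hh
  have hhc : Continuous h := continuous_const.sub (hWc.div_const _)
  have hhb : ∀ z, |h z| ≤ 1 := fun z => by
    obtain ⟨a, b⟩ := Vale.Agent.P157.Parisi.Cont.one_sub_div_mem hC (hW z).1 (hW z).2
    rw [hh, abs_of_nonneg a]
    exact b.trans (Vale.Agent.P157.Parisi.Cont.gq_mem hC).2.le
  have hWb : ∀ z, |W z| ≤ Cw := fun z => by
    rw [abs_of_pos ((inv_pos.2 hC0).trans_le (hW z).1)]; exact (hW z).2
  have hYc := continuous_innerAvg Pr hWc hWb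
  have hY : ∀ g₀, Bdd Cw (innerAvg Pr W g₀) := fun g₀ => by
    refine ⟨hC0, (hYc.comp (continuous_const.prodMk continuous_id)).measurable, fun η => ?_⟩
    have hi : Integrable (fun e => W (casField Pr g₀ η e)) ν :=
      integrable_bdd (hWc.comp ((continuous_leafF Pr).comp
        (continuous_const.prodMk (continuous_const.prodMk continuous_id)))).measurable
        (fun e => hWb _)
    exact ⟨by simpa [innerAvg, ν] using integral_mono (integrable_const _) hi fun e => (hW _).1,
      by simpa [innerAvg, ν] using integral_mono hi (integrable_const _) fun e => (hW _).2⟩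
  have eh : ∀ g₀ η, 1 - innerAvg Pr W g₀ η / Cw = innerAvg Pr h g₀ η := fun g₀ η => by
    have hi : Integrable (fun e => W (casField Pr g₀ η e) / Cw) ν :=
      (integrable_bdd (hWc.comp ((continuous_leafF Pr).comp
        (continuous_const.prodMk (continuous_const.prodMk continuous_id)))).measurable
        (fun e => hWb _)).div_const _
    simp only [innerAvg, hh]
    rw [integral_sub (integrable_const _) hi, integral_div]
    simp [ν]
  have hAc := continuous_innerAvg Pr hhc hhb
  have him : ∀ {M : ℕ} (v : Shape r M), Measurable fun z : (Fin p ⊕ Fin 1 → ℝ) ×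
      (Fin r → Fin M → Fin p ⊕ Fin 1 → ℝ) => ∏ a, innerAvg Pr h z.1 (shapeMarks v z.2 a) :=
    fun v => Finset.measurable_prod _ fun a _ => hAc.measurable.comp
      (measurable_fst.prodMk ((measurable_shapeMarks v a).comp measurable_snd))
  have hib : ∀ {M : ℕ} (v : Shape r M) (g₀ : Fin p ⊕ Fin 1 → ℝ)
      (ω : Fin r → Fin M → Fin p ⊕ Fin 1 → ℝ), |∏ a, innerAvg Pr h g₀ (shapeMarks v ω a)| ≤ 1 :=
    fun v g₀ ω => by
      rw [abs_prod]
      exact prod_le_one (fun a _ => abs_nonneg _) fun a _ => abs_innerAvg_le Pr hhb _ _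
  have hiv : ∀ {M : ℕ} (v : Shape r M), Integrable (fun g₀ => ∫ ω,
      ∏ a, innerAvg Pr h g₀ (shapeMarks v ω a) ∂tableLaw ν r M) ν := fun v =>
    integrable_bdd (him v).stronglyMeasurable.integral_prod_right'.measurable fun g₀ => by
      rw [← Real.norm_eq_abs]
      exact (norm_integral_le_of_norm_le_const (C := 1) (Eventually.of_forall fun ω =>
        (Real.norm_eq_abs _).trans_le (hib v g₀ ω))).trans_eq (by rw [probReal_univ, mul_one])
  have hterm : ∀ d : ℕ, ∫ g₀, treeMoment ν m
      (fun _ : Fin (d + 1) => fun η => 1 - innerAvg Pr W g₀ η / Cw) ∂ν =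
      ∑ v : Shape r (d + 1), shapeProb m (d + 1) v * pairVal h (elVec P v) (elVec E v) := fun d => by
    simp only [eh, treeMoment]
    rw [integral_finsetSum _ fun v _ => (hiv v).const_mul _]
    exact sum_congr rfl fun v _ => by rw [integral_const_mul, pairVal_elVec P E v hhc hhb]
  have hit : ∀ d : ℕ, Integrable (fun g₀ => treeMoment ν m
      (fun _ : Fin (d + 1) => fun η => 1 - innerAvg Pr W g₀ η / Cw) / ((d : ℝ) + 1)) ν := fun d => by
    simp only [eh, treeMoment]
    exact (integrable_finsetSum _ fun v _ => (hiv v).const_mul _).div_const _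
  have hi : Integrable (fun g₀ => Real.log (genNested ν m (innerAvg Pr W g₀))) ν :=
    integrable_bdd (measurable_genNested ν m (Y := innerAvg Pr W) hYc.measurable).log fun g₀ =>
      abs_log_le hC0 (genNested_mem ν hC0 hm (hY g₀).meas (hY g₀).mem).1
        (genNested_mem ν hC0 hm (hY g₀).meas (hY g₀).mem).2
  have hc : Integrable (fun _ : Fin p ⊕ Fin 1 → ℝ => Real.log Cw) ν := integrable_const _
  have ec : Real.log Cw = ∫ _g₀, Real.log Cw ∂ν := by simp
  show |(∫ g₀, Real.log (genNested ν m (innerAvg Pr W g₀)) ∂ν) - _| ≤ _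
  simp only [← hterm, ← integral_div]
  rw [← integral_finsetSum _ fun d _ => hit d, ec,
    ← integral_sub hc (integrable_finsetSum _ fun d _ => hit d),
    ← integral_sub hi (g := fun g₀ => Real.log Cw - ∑ d ∈ range D,
      treeMoment ν m (fun _ : Fin (d + 1) => fun η => 1 - innerAvg Pr W g₀ η / Cw) / ((d : ℝ) + 1))
      (hc.sub (integrable_finsetSum _ fun d _ => hit d)), ← Real.norm_eq_abs]
  refine (norm_integral_le_of_norm_le_const (C := gq Cw ^ (D + 1) / (1 - gq Cw))
    (Eventually.of_forall fun g₀ => (Real.norm_eq_abs _).trans_le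
      (abs_log_sub_series_le ν hm hC (hY g₀) D))).trans_eq (by rw [probReal_univ, mul_one])

end Vale.Agent.P166.Haar2.Fresh
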